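import Vale.Agent.P097.H500.G.Fin
import Vale.Agent.P097.H809D.Orb

/-! # P097 disc, D1d: vanishing Fourier modes of the critical value of a truncated one-sided table
give formal closed orbits (helper500) -/

set_option linter.all false

open MeasureTheory Set Filter Topology Metric

namespace Vale.Agent.P097.H500.G

open H795.D1 (Num Adm Fam cu cv md df cr)
open H809D (HH DH TS)

/-- Fourier modes on a small circle are Taylor coefficients -/
theorem fourier_taylor {φ : ℂ → ℂ} {s : ℝ} (hs : 0 < s) (hd : DiffContOnCl ℂ φ (ball 0 s)) (k : ℕ) :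
    (2 * Real.pi : ℂ)⁻¹ * ∫ x in (0 : ℝ)..(2 * Real.pi),
      φ (s * Complex.exp (Complex.I * x)) * ek (-(k : ℤ)) x =
      s ^ k * (((k.factorial : ℂ))⁻¹ * iteratedDeriv k φ 0) := by
  have h := hd.circleIntegral_one_div_sub_center_pow_smul hs k
  rw [circleIntegral] at h
  have hs0 : (s : ℂ) ≠ 0 := Complex.ofReal_ne_zero.2 hs.ne'
  have h1 : ∀ x : ℝ, deriv (circleMap 0 s) x • ((1 / (circleMap 0 s x - 0) ^ (k + 1)) •
      φ (circleMap 0 s x)) = (Complex.I * ((s : ℂ) ^ k)⁻¹) *
      (φ (s * Complex.exp (Complex.I * x)) * ek (-(k : ℤ)) x) := by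
    intro x
    have h2 : circleMap 0 s x = s * Complex.exp (Complex.I * x) := by
      unfold circleMap; rw [zero_add, mul_comm (x : ℂ)]
    have h3 : ek (-(k : ℤ)) x = (Complex.exp (Complex.I * x) ^ k)⁻¹ := by
      unfold ek
      rw [← Complex.exp_nat_mul, ← Complex.exp_neg]
      congr 1
      push_cast
      ring
    have h4 : Complex.exp (Complex.I * x) ≠ 0 := Complex.exp_ne_zero _
    rw [deriv_circleMap, h2, h3, smul_eq_mul, smul_eq_mul, sub_zero]
    field_simp
    ring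
  simp only [h1] at h
  rw [intervalIntegral.integral_const_mul] at h
  have hk : (s : ℂ) ^ k ≠ 0 := pow_ne_zero _ hs0
  have hpi : (Real.pi : ℂ) ≠ 0 := Complex.ofReal_ne_zero.2 Real.pi_ne_zero
  have hfac : (k.factorial : ℂ) ≠ 0 := by exact_mod_cast k.factorial_ne_zero
  have hI : Complex.I ≠ 0 := Complex.I_ne_zero
  have h5 : (∫ x in (0 : ℝ)..(2 * Real.pi), φ (s * Complex.exp (Complex.I * x)) * ek (-(k : ℤ)) x) =
      (s : ℂ) ^ k * (2 * Real.pi / k.factorial) * iteratedDeriv k φ 0 := by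
    have h6 : Complex.I * ((s : ℂ) ^ k)⁻¹ ≠ 0 := mul_ne_zero hI (inv_ne_zero hk)
    apply mul_left_cancel₀ h6
    rw [h, smul_eq_mul]
    field_simp
  rw [h5]
  field_simp

section
variable (a : ℕ → ℂ) (r : ℕ) (α : ℝ)

/-- the truncated one-sided table, seen from the regular midpoints -/
noncomputable def GG (j : ℕ) (X w : ℂ) : ℂ :=
  HH a r (X * Complex.exp (Complex.I * ((α * (2 * j + 1) : ℝ) + w))) - 1

/-- the lifted critical polygon -/
noncomputable def YY (n : ℕ) (j : ℕ) (X : ℂ) : ℂ :=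
  (2 * α * j : ℝ) + cu n α (fun i => GG a r α i X) j

end

theorem HH_zero (a : ℕ → ℂ) (r : ℕ) : HH a r 0 = a 0 := by
  unfold HH
  rw [Finset.sum_eq_single_of_mem 0 (Finset.mem_range.2 (Nat.succ_pos r))]
  · simp
  · intro m _ hm; simp [hm]

theorem HH_differentiable (a : ℕ → ℂ) (r : ℕ) : Differentiable ℂ (HH a r) := by
  unfold HH; fun_prop

theorem GG_differentiable (a : ℕ → ℂ) (r : ℕ) (α : ℝ) (j : ℕ) :
    Differentiable ℂ (fun p : ℂ × ℂ => GG a r α j p.1 p.2) := by
  unfold GG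
  exact ((HH_differentiable a r).comp (by fun_prop)).sub_const 1

/-- smallness -/
theorem exists_small {a : ℕ → ℂ} (ha : a 0 = 1) (r : ℕ) (α : ℝ) {e : ℝ} (he : 0 < e) :
    ∃ s₁ : ℝ, 0 < s₁ ∧ ∀ X ∈ ball (0 : ℂ) s₁, ∀ (j : ℕ), ∀ w ∈ ball (0 : ℂ) (1 / 2),
      ‖GG a r α j X w‖ ≤ e := by
  have h1 : ContinuousAt (HH a r) 0 := (HH_differentiable a r).continuous.continuousAt
  rw [Metric.continuousAt_iff] at h1
  obtain ⟨δ, hδ, h2⟩ := h1 e he
  refine ⟨δ / Real.exp 1, by positivity, fun X hX j w hw => ?_⟩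
  have h3 : ‖X * Complex.exp (Complex.I * ((α * (2 * j + 1) : ℝ) + w))‖ < δ := by
    rw [norm_mul, Complex.norm_exp]
    have h4 : (Complex.I * (((α * (2 * j + 1) : ℝ) : ℂ) + w)).re ≤ 1 := by
      have h5 := abs_im_lt hw
      rw [abs_lt] at h5
      simp
      linarith
    rw [mem_ball, dist_zero_right, lt_div_iff₀ (Real.exp_pos 1)] at hX
    calc ‖X‖ * Real.exp _ ≤ ‖X‖ * Real.exp 1 := by gcongr
      _ < δ := hX
  have h4 := h2 (x := X * Complex.exp (Complex.I * ((α * (2 * j + 1) : ℝ) + w)))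
    (by rwa [dist_zero_right])
  rw [HH_zero, ha, dist_eq_norm] at h4
  exact h4.le

theorem GG_zero {a : ℕ → ℂ} (ha : a 0 = 1) (r : ℕ) (α : ℝ) (j : ℕ) (w : ℂ) :
    GG a r α j 0 w = 0 := by
  unfold GG; rw [zero_mul, HH_zero, ha, sub_self]

/-- derivative in `w` -/
theorem deriv_GG (a : ℕ → ℂ) (r : ℕ) (α : ℝ) (j : ℕ) (X w : ℂ) :
    deriv (GG a r α j X) w = Complex.I * DH a r (X * Complex.exp (Complex.I * ((α * (2 * j + 1) : ℝ) + w))) := by
  obtain ⟨H', hH, hH'⟩ := H809D.HH_hasDerivAt a r (X * Complex.exp (Complex.I * ((α * (2 * j + 1) : ℝ) + w)))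
  have h1 : HasDerivAt (fun w : ℂ => X * Complex.exp (Complex.I * ((α * (2 * j + 1) : ℝ) + w)))
      (X * (Complex.exp (Complex.I * ((α * (2 * j + 1) : ℝ) + w)) * (Complex.I * 1))) w :=
    ((((hasDerivAt_id w).const_add _).const_mul Complex.I).cexp).const_mul X
  have h2 := (hH.comp w h1).sub_const 1
  have h3 : deriv (GG a r α j X) w = H' * (X * (Complex.exp (Complex.I * ((α * (2 * j + 1) : ℝ) + w)) *
      (Complex.I * 1))) := h2.deriv
  rw [h3, ← hH']
  ring

section
variable {a : ℕ → ℂ} {r n p : ℕ} {α e s₁ : ℝ}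

theorem ps_YY (X : ℂ) (j : ℕ) : H809D.ps (YY a r α n) j X =
    (α * (2 * j + 1) : ℝ) + md (cu n α (fun i => GG a r α i X)) j := by
  unfold H809D.ps YY md; push_cast; ring

theorem dl_YY (X : ℂ) (j : ℕ) : H809D.dl (YY a r α n) j X =
    α + df (cu n α (fun i => GG a r α i X)) j := by
  unfold H809D.dl YY df; push_cast; ring

theorem HH_wj (X : ℂ) (j : ℕ) : HH a r (H809D.wj (YY a r α n) j X) =
    1 + GG a r α j X (md (cu n α (fun i => GG a r α i X)) j) := by
  have h : GG a r α j X (md (cu n α (fun i => GG a r α i X)) j) = HH a r (X * Complex.exp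
    (Complex.I * ((α * (2 * j + 1) : ℝ) + md (cu n α (fun i => GG a r α i X)) j))) - 1 := rfl
  rw [h]
  unfold H809D.wj
  rw [ps_YY]
  ring

theorem DH_wj (X : ℂ) (j : ℕ) : Complex.I * DH a r (H809D.wj (YY a r α n) j X) =
    deriv (GG a r α j X) (md (cu n α (fun i => GG a r α i X)) j) := by
  rw [deriv_GG]; unfold H809D.wj; rw [ps_YY]

theorem act_YY (X : ℂ) : H809D.act a r (YY a r α n) n X = 2 * cv n α (fun i => GG a r α i X) := by
  unfold H809D.act cv H795.D1.Ac
  rw [Finset.mul_sum]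
  refine Finset.sum_congr rfl fun j _ => ?_
  rw [HH_wj, dl_YY]; ring

/-- the critical configuration -/
theorem crit_YY (hα : α = Real.pi * p / n) (hn : 0 < n) (h : Num n α (1 / 2) e)
    (ha : a 0 = 1) (hs₁ : 0 < s₁)
    (hF : Fam n (1 / 2) e (ball 0 s₁) (GG a r α)) : H809D.Crit a r n p (YY a r α n) where
  an := fun j hj => by
    have h1 := (H795.D1.cu_dif h hF hj).analyticAt (isOpen_ball.mem_nhds (mem_ball_self hs₁))
    exact analyticAt_const.add h1
  first := by
    filter_upwards [ball_mem_nhds (0 : ℂ) hs₁] with X hX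
    have := H795.D1.cu_zero h (hF.adm hX)
    unfold YY
    rw [this]; simp
  last := by
    filter_upwards [ball_mem_nhds (0 : ℂ) hs₁] with X hX
    have := H795.D1.cu_self h (hF.adm hX)
    unfold YY
    rw [this, add_zero, hα]
    have hn' : (n : ℂ) ≠ 0 := Nat.cast_ne_zero.2 hn.ne'
    push_cast
    field_simp
  reg := fun j hj => by
    have h0 : (0 : ℂ) ∈ ball (0 : ℂ) s₁ := mem_ball_self hs₁
    have h1 : cu n α (fun i => GG a r α i 0) j = 0 := by
      rw [H795.D1.cu_congr h (hF.adm h0) (G' := fun _ _ => 0) (fun i _ w _ => GG_zero ha r α i w) hj]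
      exact H795.D1.cu_of_zero h ((hF.adm h0).congr fun i _ w _ => GG_zero ha r α i w) hj
    unfold YY
    rw [h1, add_zero, hα]
    push_cast
    ring
  el := fun j hj => by
    filter_upwards [ball_mem_nhds (0 : ℂ) hs₁] with X hX
    have h1 := H795.D1.cu_crit h (hF.adm hX) hj
    unfold H795.D1.cr at h1
    simp only [H809D.pout, H809D.pin]
    rw [HH_wj, HH_wj, DH_wj, DH_wj, dl_YY, dl_YY]
    linear_combination h1

end

/-- [D1d] the bridge -/
theorem orb_of_F {a c : ℕ → ℂ} {r n p : ℕ} (hp : 0 < p) (hpn : p < n) (ha : a 0 = 1)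
    (hc0 : c 0 = 0) (hac : ∀ m, 1 ≤ m → a m = c m)
    (hF : ∀ m, 1 ≤ m → m ≤ r → ∃ s₀ : ℝ, 0 < s₀ ∧ ∀ s : ℂ, ‖s‖ < s₀ →
      Fpn p n m (D1G.rot s (D1G.tr r (D1G.os c))) = 0) :
    Disc.Orb a (Complex.exp (Complex.I * (Real.pi * p / n))) n r := by
  have hn : (0 : ℝ) < n := by exact_mod_cast (hp.trans hpn)
  have hp' : (0 : ℝ) < p := by exact_mod_cast hp
  have hpn' : (p : ℝ) < n := by exact_mod_cast hpn
  set α : ℝ := Real.pi * p / n with hα
  have hs : 0 < Real.sin α := by
    apply Real.sin_pos_of_pos_of_lt_pi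
    · positivity
    · rw [hα, div_lt_iff₀ hn]; nlinarith [Real.pi_pos]
  set e : ℝ := (1 / 2) ^ 2 * Real.sin α ^ 2 / (5120 * (n : ℝ) ^ 4) with he
  have he0 : 0 < e := by positivity
  have hnum : Num n α (1 / 2) e := ⟨hp.trans hpn, by norm_num, by norm_num, he0.le, hs, le_rfl⟩
  obtain ⟨s₁, hs₁, hsm⟩ := exists_small ha r α he0
  have hFam : Fam n (1 / 2) e (ball 0 s₁) (GG a r α) :=
    ⟨isOpen_ball, fun j _ => (GG_differentiable a r α j).differentiableOn,
      fun t ht j _ w hw => hsm t ht j w hw⟩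
  refine H809D.orb_of_const ha (hp.trans hpn) (crit_YY hα (hp.trans hpn) hnum ha hs₁ hFam) ?_
  intro k hk hkr
  obtain ⟨s₀, hs₀, hz⟩ := hF k hk hkr
  set φ : ℂ → ℂ := fun X => cv n α (fun i => GG a r α i X) with hφ
  have hφd : DifferentiableOn ℂ φ (ball 0 s₁) := H795.D1.cv_dif hnum hFam
  set s : ℝ := min s₀ s₁ / 2 with hsdef
  have hs0 : 0 < s := by positivity
  have hss0 : s < s₀ := by
    have := min_le_left s₀ s₁
    rw [hsdef]; linarith
  have hss1 : s < s₁ := by
    have := min_le_right s₀ s₁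
    rw [hsdef]; linarith
  have hdc : DiffContOnCl ℂ φ (ball 0 s) := by
    refine (hφd.mono ?_).diffContOnCl
    exact closure_ball_subset_closedBall.trans (closedBall_subset_ball hss1)
  have h1 := fourier_taylor hs0 hdc k
  have h2 := hz (s : ℂ) (by rwa [Complex.norm_real, Real.norm_of_nonneg hs0.le])
  have hsc : (s : ℂ) ≠ 0 := Complex.ofReal_ne_zero.2 hs0.ne'
  -- the function of the rotated truncated sequence
  have hgs : ∀ v : ℂ, gs (D1G.rot (s : ℂ) (D1G.tr r (D1G.os c))) v =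
      HH a r (s * Complex.exp (Complex.I * v)) - 1 := by
    intro v
    unfold gs
    rw [tsum_eq_sum (s := (Finset.range (r + 1)).map ⟨Nat.cast, Nat.cast_injective⟩)]
    · rw [Finset.sum_map]
      unfold HH
      rw [Finset.sum_range_succ', Finset.sum_range_succ', ha]
      have h3 : ∀ m ∈ Finset.range r, D1G.rot (s : ℂ) (D1G.tr r (D1G.os c)) ((m + 1 : ℕ) : ℤ) *
          ek ((m + 1 : ℕ) : ℤ) v = a (m + 1) * (s * Complex.exp (Complex.I * v)) ^ (m + 1) := by
        intro m hm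
        have hm' := Finset.mem_range.1 hm
        unfold D1G.rot D1G.tr D1G.os
        have h4 : |((m + 1 : ℕ) : ℤ)| ≤ (r : ℤ) := by
          rw [abs_of_nonneg (by positivity)]; exact_mod_cast hm'
        rw [if_pos h4, if_pos (by positivity), Int.toNat_natCast, hac (m + 1) (by omega), zpow_natCast]
        have h5 : ek ((m + 1 : ℕ) : ℤ) v = Complex.exp (Complex.I * v) ^ (m + 1) := by
          unfold ek
          rw [← Complex.exp_nat_mul]
          congr 1
          push_cast
          ring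
        rw [h5, mul_pow]
        ring
      have h6 : D1G.rot (s : ℂ) (D1G.tr r (D1G.os c)) ((0 : ℕ) : ℤ) * ek ((0 : ℕ) : ℤ) v = 0 := by
        unfold D1G.rot D1G.tr D1G.os
        simp [hc0]
      simp only [Function.Embedding.coeFn_mk]
      rw [h6, Finset.sum_congr rfl h3]
      simp
    · intro k hk
      have : D1G.tr r (D1G.os c) k = 0 := by
        unfold D1G.tr D1G.os
        by_cases h7 : |k| ≤ (r : ℤ)
        · rw [if_pos h7]
          by_cases h8 : 0 ≤ k
          · exfalso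
            apply hk
            rw [Finset.mem_map]
            refine ⟨k.toNat, ?_, Int.toNat_of_nonneg h8⟩
            rw [Finset.mem_range]
            rw [abs_of_nonneg h8] at h7
            omega
          · rw [if_neg h8]
        · rw [if_neg h7]
      unfold D1G.rot
      rw [this]; simp
  have h3 : Fpn p n k (D1G.rot s (D1G.tr r (D1G.os c))) = (2 * Real.pi : ℂ)⁻¹ *
      ∫ x in (0 : ℝ)..(2 * Real.pi), φ (s * Complex.exp (Complex.I * x)) * ek (-(k : ℤ)) x := by
    unfold Fpn FM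
    congr 1
    refine intervalIntegral.integral_congr fun x _ => ?_
    congr 1
    unfold Phi
    simp only [hφ]
    congr 1
    funext j w
    rw [hgs]
    unfold GG
    rw [mul_assoc, ← Complex.exp_add, mul_add Complex.I, mul_add Complex.I, mul_add Complex.I,
      add_assoc]
  rw [h3, h1] at h2
  have h4 : ((k.factorial : ℂ))⁻¹ * iteratedDeriv k φ 0 = 0 := by
    rcases mul_eq_zero.1 h2 with h5 | h5
    · exact absurd h5 (pow_ne_zero _ hsc)
    · exact h5
  have h5 : H809D.act a r (YY a r α n) n = fun X => 2 * φ X := by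
    funext X; rw [act_YY]
  rw [h5, H809D.coeff_TS]
  have h6 : iteratedDeriv k (fun X => 2 * φ X) 0 = 2 * iteratedDeriv k φ 0 :=
    iteratedDeriv_const_mul_field 2 φ
  rw [h6]
  linear_combination 2 * h4

end Vale.Agent.P097.H500.G
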