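import Vale.Agent.P097.H500.G.Func
import Vale.Agent.P097.D1G.Defs

/-! # P097 disc, D1a: output in the form of helper60's `D1G.Fun` (helper500) -/

set_option linter.all false

open MeasureTheory Set Filter Topology Metric

namespace Vale.Agent.P097.H500.G

theorem rot_eq {lam : ℂ} (h : lam ≠ 0) (a : ℤ → ℂ) :
    D1G.rot lam a = rot (-Complex.I * Complex.log lam) a := by
  funext k
  unfold D1G.rot rot ek
  have h1 : Complex.I * (k : ℂ) * (-Complex.I * Complex.log lam) = (k : ℂ) * Complex.log lam := by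
    linear_combination (-(k : ℂ) * Complex.log lam) * Complex.I_sq
  rw [h1, Complex.exp_int_mul, Complex.exp_log h, mul_comm]

theorem ek_log {lam : ℂ} (h : lam ≠ 0) (m : ℕ) : ek (m : ℤ) (-Complex.I * Complex.log lam) = lam ^ m := by
  unfold ek
  have h1 : Complex.I * ((m : ℤ) : ℂ) * (-Complex.I * Complex.log lam) = (m : ℂ) * Complex.log lam := by
    push_cast
    linear_combination (-(m : ℂ) * Complex.log lam) * Complex.I_sq
  rw [h1, Complex.exp_nat_mul, Complex.exp_log h]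

/-- the linear coefficient -/
noncomputable def Lc (n : ℕ) (α : ℝ) (m : ℤ) : ℂ :=
  Real.sin α * ∑ j ∈ Finset.range n, ek m ((α * (2 * j + 1) : ℝ) : ℂ)

/-- The Fourier modes of the critical value are a `Fun`. -/
theorem toFun {n : ℕ} {α b e M : ℝ} {crit : (ℕ → ℂ → ℂ) → ℂ} (hC : CoreAt n α (b / 2) e M crit)
    (hb : 0 < b) (he : 0 < e) (hM : 1 ≤ M) (m : ℕ) :
    D1G.Fun b (e / 2) M m (Lc n α m) (FM crit α m) where
  hR := by positivity
  hM := hM
  bd := fun a ha hn => FM_bound hC hb ha (by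
    have : wn b a < e / 2 := hn
    linarith [wn_nonneg b a]) m
  hol := fun a c ha hc => FM_differentiableOn hC hb ha hc m
  rot := fun lam hlam a ha hr hn hn' => by
    rw [rot_eq hlam] at hr hn' ⊢
    rw [FM_rot hC hb ha hr hn.le hn'.le m, ek_log hlam]
  lin := fun c hc => by
    -- scale
    have hW : WS b c := hc
    obtain ⟨s, hs, hs'⟩ : ∃ s : ℝ, 0 < s ∧ s * wn b c ≤ e := by
      refine ⟨e / (1 + wn b c), div_pos he (by linarith [wn_nonneg b c]), ?_⟩
      rw [div_mul_eq_mul_div, div_le_iff₀ (by linarith [wn_nonneg b c])]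
      nlinarith [wn_nonneg b c]
    have h1 := FM_deriv_zero (c := (s : ℂ) • c) hC hb he (hW.smul _) (by
      rw [wn_smul, Complex.norm_real, Real.norm_of_nonneg hs.le]; exact hs') m
    have h2 : HasDerivAt (fun t : ℂ => t / (s : ℂ)) ((s : ℂ)⁻¹) 0 := by
      have := (hasDerivAt_id (0 : ℂ)).div_const (s : ℂ)
      simpa using this
    have h3 : HasDerivAt (fun t : ℂ => FM crit α m (t • ((s : ℂ) • c)))
      (Real.sin α * (∑ j ∈ Finset.range n, ek m ((α * (2 * j + 1) : ℝ) : ℂ)) * ((s : ℂ) • c) m)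
      ((fun t : ℂ => t / (s : ℂ)) 0) := by simpa using h1
    have h4 := h3.comp (0 : ℂ) h2
    have hs0 : (s : ℂ) ≠ 0 := Complex.ofReal_ne_zero.2 hs.ne'
    have h5 : ((fun t : ℂ => FM crit α m (t • ((s : ℂ) • c))) ∘ fun t : ℂ => t / (s : ℂ)) =
        fun t : ℂ => FM crit α m (t • c) := by
      funext t
      show FM crit α m ((t / (s : ℂ)) • ((s : ℂ) • c)) = _
      rw [smul_smul, div_mul_cancel₀ _ hs0]
    rw [h5] at h4
    have h6 : (Real.sin α * (∑ j ∈ Finset.range n, ek m ((α * (2 * j + 1) : ℝ) : ℂ)) *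
        ((s : ℂ) • c) m * (s : ℂ)⁻¹ : ℂ) = Lc n α m * c m := by
      rw [Pi.smul_apply, smul_eq_mul]
      unfold Lc
      field_simp
    rw [h6] at h4
    exact h4

/-- For `α = π / n` and `m = n` the linear coefficient is `-n sin (π/n)`. -/
theorem Lc_self {n : ℕ} (hn : n ≠ 0) : Lc n (Real.pi / n) n = -(n * Real.sin (Real.pi / n) : ℝ) := by
  unfold Lc
  have hn' : (n : ℂ) ≠ 0 := Nat.cast_ne_zero.2 hn
  have h : ∀ j : ℕ, ek (n : ℤ) ((Real.pi / n * (2 * j + 1) : ℝ) : ℂ) = -1 := by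
    intro j
    unfold ek
    have h1 : Complex.I * ((n : ℤ) : ℂ) * ((Real.pi / n * (2 * j + 1) : ℝ) : ℂ) =
        Real.pi * Complex.I + (j : ℕ) * (2 * Real.pi * Complex.I) := by
      push_cast
      field_simp
      ring
    rw [h1, Complex.exp_add, Complex.exp_pi_mul_I, Complex.exp_nat_mul_two_pi_mul_I, mul_one]
  simp only [h]
  rw [Finset.sum_const, Finset.card_range]
  push_cast
  rw [nsmul_eq_mul]
  ring

/-- lower bound `n sin (π / n) ≥ 2` for `n ≥ 2` -/
theorem two_le {n : ℕ} (hn : 2 ≤ n) : 2 ≤ n * Real.sin (Real.pi / n) := by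
  have hn0 : (0 : ℝ) < n := by positivity
  have h1 : Real.pi / n ≤ Real.pi / 2 := by
    apply div_le_div_of_nonneg_left Real.pi_pos.le (by norm_num)
    exact_mod_cast hn
  have h2 := Real.mul_le_sin (x := Real.pi / n) (by positivity) h1
  have h3 : 2 / Real.pi * (Real.pi / n) = 2 / n := by
    field_simp
  rw [h3] at h2
  calc (2 : ℝ) = n * (2 / n) := by field_simp
    _ ≤ n * Real.sin (Real.pi / n) := by gcongr

/-- constant critical value: no Fourier modes -/
theorem FM_of_const {crit : (ℕ → ℂ → ℂ) → ℂ} {α : ℝ} {a : ℤ → ℂ} {c : ℂ}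
    (h : ∀ x : ℝ, Phi crit α a x = c) {m : ℤ} (hm : m ≠ 0) : FM crit α m a = 0 := by
  unfold FM
  simp only [h]
  rw [intervalIntegral.integral_const_mul]
  have h1 : ∀ x : ℝ, ek (-m) (x : ℂ) = Complex.exp ((Complex.I * ((-m : ℤ) : ℂ)) * x) := fun x => rfl
  simp only [h1]
  have hne : Complex.I * ((-m : ℤ) : ℂ) ≠ 0 := by
    refine mul_ne_zero Complex.I_ne_zero ?_
    exact_mod_cast neg_ne_zero.2 hm
  rw [integral_exp_mul_complex hne]
  have : Complex.exp (Complex.I * ((-m : ℤ) : ℂ) * ((2 * Real.pi : ℝ) : ℂ)) = 1 := by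
    rw [Complex.exp_eq_one_iff]
    exact ⟨-m, by push_cast; ring⟩
  rw [this]
  simp

/-- monotonicity of `Fun` in the constants -/
theorem Fun_mono {b R M R' M' : ℝ} {m : ℕ} {L : ℂ} {F : (ℤ → ℂ) → ℂ} (h : D1G.Fun b R M m L F)
    (hR' : 0 < R') (hR : R' ≤ R) (hM : M ≤ M') : D1G.Fun b R' M' m L F where
  hR := hR'
  hM := h.hM.trans hM
  bd := fun a ha hn => (h.bd a ha (hn.trans_le hR)).trans hM
  hol := fun a c ha hc => (h.hol a c ha hc).mono fun t ht => lt_of_lt_of_le ht hR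
  rot := fun lam hlam a ha hr hn hn' => h.rot lam hlam a ha hr (hn.trans_le hR) (hn'.trans_le hR)
  lin := h.lin

end Vale.Agent.P097.H500.G
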