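import Vale.Agent.P097.H500.G.BridgeR

/-! # P097 disc, D1e: first variation at an analytic one-sided table (helper500) -/

set_option linter.all false

open MeasureTheory Set Filter Topology Metric

namespace Vale.Agent.P097.H500.G

open H795.D1 (Num Adm Fam cu cv md df cr)
open H809D (HH DH TS)

/-- Taylor coefficients -/
noncomputable def cT (f : ℂ → ℂ) (k : ℕ) : ℂ := PowerSeries.coeff k (TS f)

/-- the one-sided table `1 + f`, seen from the regular midpoints -/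
noncomputable def GX (α : ℝ) (f : ℂ → ℂ) (X : ℂ) (j : ℕ) (w : ℂ) : ℂ :=
  f (X * Complex.exp (Complex.I * ((α * (2 * j + 1) : ℝ) + w)))

theorem cT_zero (f : ℂ → ℂ) : cT f 0 = f 0 := H809D.coeff_TS_zero f

theorem exists_ball {f : ℂ → ℂ} (hf : AnalyticAt ℂ f 0) : ∃ R : ℝ, 0 < R ∧
    DifferentiableOn ℂ f (ball 0 R) ∧ ∀ z ∈ ball (0 : ℂ) R, HasSum (fun k => cT f k * z ^ k) (f z) := by
  obtain ⟨U, hU, hU'⟩ := Metric.eventually_nhds_iff_ball.1 hf.eventually_analyticAt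
  have hd : DifferentiableOn ℂ f (ball 0 U) := fun z hz =>
    (hU' z hz).differentiableAt.differentiableWithinAt
  refine ⟨U, hU, hd, fun z hz => ?_⟩
  have h1 := Complex.hasSum_taylorSeries_on_ball hd hz
  have h2 : (fun k => cT f k * z ^ k) =
      fun n : ℕ => ((n.factorial : ℂ))⁻¹ • (z - 0) ^ n • iteratedDeriv n f 0 := by
    funext k
    unfold cT
    rw [H809D.coeff_TS, smul_eq_mul, smul_eq_mul, sub_zero]
    ring
  rw [h2]
  exact h1

theorem os_nat (c : ℕ → ℂ) (m : ℕ) : D1G.os c (m : ℤ) = c m := by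
  unfold D1G.os; rw [if_pos (by positivity), Int.toNat_natCast]

theorem os_neg (c : ℕ → ℂ) {k : ℤ} (hk : k ∉ Set.range (Nat.cast : ℕ → ℤ)) : D1G.os c k = 0 := by
  unfold D1G.os
  rw [if_neg]
  intro h
  exact hk ⟨k.toNat, Int.toNat_of_nonneg h⟩

theorem rot_os_nat (c : ℕ → ℂ) (s : ℂ) (m : ℕ) : D1G.rot s (D1G.os c) (m : ℤ) = s ^ m * c m := by
  unfold D1G.rot; rw [os_nat, zpow_natCast]

theorem rot_os_neg (c : ℕ → ℂ) (s : ℂ) {k : ℤ} (hk : k ∉ Set.range (Nat.cast : ℕ → ℤ)) :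
    D1G.rot s (D1G.os c) k = 0 := by
  unfold D1G.rot; rw [os_neg c hk, mul_zero]

theorem gs_osf {c : ℕ → ℂ} {s v S : ℂ}
    (h : HasSum (fun k => c k * (s * Complex.exp (Complex.I * v)) ^ k) S) :
    gs (D1G.rot s (D1G.os c)) v = S := by
  unfold gs
  have hinj : Function.Injective (Nat.cast : ℕ → ℤ) := Nat.cast_injective
  rw [← hinj.tsum_eq (f := fun k : ℤ => D1G.rot s (D1G.os c) k * ek k v)]
  · rw [← h.tsum_eq]
    refine tsum_congr fun m => ?_
    rw [rot_os_nat]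
    have h5 : ek (m : ℤ) v = Complex.exp (Complex.I * v) ^ m := by
      unfold ek
      rw [← Complex.exp_nat_mul]
      congr 1
      push_cast
      ring
    rw [h5, mul_pow]
    ring
  · intro k hk
    by_contra hcon
    exact hk (by simp only; rw [rot_os_neg c s hcon, zero_mul])

theorem term_osf (c : ℕ → ℂ) (s : ℂ) (m : ℕ) : ‖D1G.rot s (D1G.os c) (m : ℤ)‖ *
    Real.exp (1 * |((m : ℤ) : ℝ)|) = ‖c m‖ * (‖s‖ * Real.exp 1) ^ m := by
  rw [rot_os_nat, norm_mul, norm_pow, mul_pow, ← Real.exp_nat_mul, one_mul]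
  have : |((m : ℤ) : ℝ)| = m := by simp
  rw [this, mul_one]
  ring

theorem WS_osf {c : ℕ → ℂ} {s : ℂ} (h : Summable fun m => ‖c m‖ * (‖s‖ * Real.exp 1) ^ m) :
    WS 1 (D1G.rot s (D1G.os c)) := by
  unfold WS
  have hinj : Function.Injective (Nat.cast : ℕ → ℤ) := Nat.cast_injective
  rw [← hinj.summable_iff (f := fun k : ℤ => ‖D1G.rot s (D1G.os c) k‖ * Real.exp (1 * |(k : ℝ)|))]
  · exact h.congr fun m => (term_osf c s m).symm
  · intro k hk
    rw [rot_os_neg c s hk]; simp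

theorem wn_osf (c : ℕ → ℂ) (s : ℂ) :
    wn 1 (D1G.rot s (D1G.os c)) = ∑' m : ℕ, ‖c m‖ * (‖s‖ * Real.exp 1) ^ m := by
  unfold wn
  have hinj : Function.Injective (Nat.cast : ℕ → ℤ) := Nat.cast_injective
  rw [← hinj.tsum_eq (f := fun k : ℤ => ‖D1G.rot s (D1G.os c) k‖ * Real.exp (1 * |(k : ℝ)|))]
  · exact tsum_congr fun m => term_osf c s m
  · intro k hk
    by_contra hcon
    exact hk (by simp only; rw [rot_os_neg c s hcon]; simp)

/-- summability inside the disc -/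
theorem summable_osf {f : ℂ → ℂ} {R : ℝ}
    (h : ∀ z ∈ ball (0 : ℂ) R, HasSum (fun k => cT f k * z ^ k) (f z)) {ρ : ℝ} (hρ0 : 0 ≤ ρ)
    (hρ : ρ < R) : Summable fun m => ‖cT f m‖ * ρ ^ m := by
  have h1 := (h (ρ : ℂ) (by
    rw [mem_ball, dist_zero_right, Complex.norm_real, Real.norm_of_nonneg hρ0]; exact hρ)).summable.norm
  refine h1.congr fun m => ?_
  rw [norm_mul, norm_pow, Complex.norm_real, Real.norm_of_nonneg hρ0]

theorem exists_wn_small' {f : ℂ → ℂ} (hf : AnalyticAt ℂ f 0) (hf0 : f 0 = 0) {e : ℝ} (he : 0 < e) :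
    ∃ s₂ : ℝ, 0 < s₂ ∧ ∀ s : ℂ, ‖s‖ < s₂ → WS 1 (D1G.rot s (D1G.os (cT f))) ∧
      wn 1 (D1G.rot s (D1G.os (cT f))) < e := by
  obtain ⟨R, hR, _, hsum⟩ := exists_ball hf
  set ρ : ℝ := R / 2 / Real.exp 1 with hρ
  have hρ0 : 0 < ρ := by positivity
  have hρe : ρ * Real.exp 1 = R / 2 := by rw [hρ]; field_simp
  have hS := summable_osf hsum (ρ := ρ * Real.exp 1) (by positivity) (by rw [hρe]; linarith)
  set K : ℝ := ∑' m, ‖cT f m‖ * (ρ * Real.exp 1) ^ m with hK
  have hK0 : 0 ≤ K := tsum_nonneg fun m => by positivity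
  refine ⟨min ρ (ρ * e / (1 + K)), by positivity, fun s hs => ?_⟩
  have hs1 : ‖s‖ < ρ := lt_of_lt_of_le hs (min_le_left _ _)
  have hs2 : ‖s‖ < ρ * e / (1 + K) := lt_of_lt_of_le hs (min_le_right _ _)
  have hterm : ∀ m, ‖cT f m‖ * (‖s‖ * Real.exp 1) ^ m ≤
      ‖s‖ / ρ * (‖cT f m‖ * (ρ * Real.exp 1) ^ m) := by
    intro m
    rcases Nat.eq_zero_or_pos m with h | h
    · subst h; rw [cT_zero, hf0]; simp
    · have h1 : (‖s‖ * Real.exp 1) ^ m = (‖s‖ / ρ) ^ m * (ρ * Real.exp 1) ^ m := by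
        rw [← mul_pow]; congr 1; field_simp
      have h2 : (‖s‖ / ρ) ^ m ≤ ‖s‖ / ρ := by
        apply pow_le_of_le_one (by positivity) ?_ (by omega)
        rw [div_le_one hρ0]; exact hs1.le
      rw [h1]
      calc ‖cT f m‖ * ((‖s‖ / ρ) ^ m * (ρ * Real.exp 1) ^ m)
          ≤ ‖cT f m‖ * ((‖s‖ / ρ) * (ρ * Real.exp 1) ^ m) := by gcongr
        _ = _ := by ring
  have hsS : Summable fun m => ‖cT f m‖ * (‖s‖ * Real.exp 1) ^ m :=
    Summable.of_nonneg_of_le (fun m => by positivity) hterm (hS.mul_left _)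
  refine ⟨WS_osf hsS, ?_⟩
  rw [wn_osf]
  calc ∑' m, ‖cT f m‖ * (‖s‖ * Real.exp 1) ^ m ≤ ∑' m, ‖s‖ / ρ * (‖cT f m‖ * (ρ * Real.exp 1) ^ m) :=
        Summable.tsum_le_tsum hterm hsS (hS.mul_left _)
    _ = ‖s‖ / ρ * K := by rw [tsum_mul_left]
    _ < e := by
        rw [div_mul_eq_mul_div, div_lt_iff₀ hρ0]
        rw [lt_div_iff₀ (by linarith)] at hs2
        nlinarith [norm_nonneg s]

theorem exists_WS {g : ℂ → ℂ} (hg : AnalyticAt ℂ g 0) :
    ∃ s₂ : ℝ, 0 < s₂ ∧ ∀ s : ℂ, ‖s‖ < s₂ → WS 1 (D1G.rot s (D1G.os (cT g))) := by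
  obtain ⟨R, hR, _, hsum⟩ := exists_ball hg
  refine ⟨R / Real.exp 1, by positivity, fun s hs => WS_osf ?_⟩
  refine summable_osf hsum (by positivity) ?_
  rwa [lt_div_iff₀ (Real.exp_pos 1)] at hs

/-- the arguments stay in the disc -/
theorem arg_lt {R : ℝ} (hR : 0 < R) {X : ℂ} (hX : X ∈ ball (0 : ℂ) (R / Real.exp 1)) (s : ℝ) {w : ℂ}
    (hw : w ∈ ball (0 : ℂ) (1 / 2)) : X * Complex.exp (Complex.I * ((s : ℂ) + w)) ∈ ball (0 : ℂ) R := by
  rw [mem_ball, dist_zero_right, norm_mul, Complex.norm_exp]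
  have h4 : (Complex.I * ((s : ℂ) + w)).re ≤ 1 := by
    have h5 := abs_im_lt hw
    rw [abs_lt] at h5
    simp
    linarith
  rw [mem_ball, dist_zero_right, lt_div_iff₀ (Real.exp_pos 1)] at hX
  calc ‖X‖ * Real.exp _ ≤ ‖X‖ * Real.exp 1 := by gcongr
    _ < R := hX

/-- the family of an analytic one-sided table is admissible for small `X` -/
theorem exists_Fam {f : ℂ → ℂ} (hf : AnalyticAt ℂ f 0) (hf0 : f 0 = 0) (n : ℕ) (α : ℝ) {e : ℝ}
    (he : 0 < e) : ∃ s₁ : ℝ, 0 < s₁ ∧ Fam n (1 / 2) e (ball 0 s₁) (fun j X => GX α f X j) := by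
  obtain ⟨R, hR, hd, _⟩ := exists_ball hf
  have h1 : ContinuousAt f 0 := hf.continuousAt
  rw [Metric.continuousAt_iff] at h1
  obtain ⟨δ, hδ, h2⟩ := h1 e he
  have hm : 0 < min R δ := lt_min hR hδ
  refine ⟨min R δ / Real.exp 1, by positivity, isOpen_ball, fun j _ => ?_, fun X hX j _ w hw => ?_⟩
  · unfold GX
    refine hd.comp (by fun_prop) ?_
    rintro ⟨X, w⟩ ⟨hX, hw⟩
    exact ball_subset_ball (min_le_left R δ) (arg_lt hm hX _ hw)
  · have h3 := arg_lt hm hX (α * (2 * j + 1)) hw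
    have h4 := h2 (ball_subset_ball (min_le_right R δ) h3)
    rw [hf0, dist_zero_right] at h4
    exact h4.le

/-- admissibility for small `X` -/
theorem eventually_Adm {f : ℂ → ℂ} (hf : AnalyticAt ℂ f 0) (hf0 : f 0 = 0) (n : ℕ) (α : ℝ) {e : ℝ}
    (he : 0 < e) : ∀ᶠ X in 𝓝 (0 : ℂ), Adm n (1 / 2) e (GX α f X) := by
  obtain ⟨s₁, hs₁, hF⟩ := exists_Fam hf hf0 n α he
  filter_upwards [ball_mem_nhds (0 : ℂ) hs₁] with X hX
  exact hF.adm hX

/-- the first variation -/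
noncomputable def EV (n : ℕ) (α : ℝ) (f g : ℂ → ℂ) (X : ℂ) : ℂ :=
  ∑ j ∈ Finset.range n, g (X * Complex.exp (Complex.I *
    ((α * (2 * j + 1) : ℝ) + md (cu n α (GX α f X)) j))) *
    Complex.sin (α + df (cu n α (GX α f X)) j)

theorem md_mem {n : ℕ} {α e : ℝ} (h : Num n α (1 / 2) e) {G : ℕ → ℂ → ℂ} (hG : Adm n (1 / 2) e G)
    {j : ℕ} (hj : j < n) : md (cu n α G) j ∈ ball (0 : ℂ) (1 / 2) := by
  rw [mem_ball, dist_zero_right]
  have h7 : ∀ i ≤ n, ‖cu n α G i‖ ≤ H795.D1.rho n α (1 / 2) := fun i hi =>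
    H795.D1.cu_le' h hG hi
  have h8 := H795.D1.md_le hj h7
  have h9 := H795.D1.rho_le h
  linarith

theorem EV_dif {n : ℕ} {α e : ℝ} (h : Num n α (1 / 2) e) {f g : ℂ → ℂ} {s₁ R : ℝ} (hR : 0 < R)
    (hg : DifferentiableOn ℂ g (ball 0 R)) (hs : s₁ ≤ R / Real.exp 1)
    (hF : Fam n (1 / 2) e (ball 0 s₁) (fun j X => GX α f X j)) :
    DifferentiableOn ℂ (EV n α f g) (ball 0 s₁) := by
  unfold EV
  refine DifferentiableOn.fun_sum fun j hj => ?_
  have hj' := Finset.mem_range.1 hj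
  have hu : ∀ i ≤ n, DifferentiableOn ℂ (fun X => cu n α (GX α f X) i) (ball 0 s₁) :=
    fun i hi => H795.D1.cu_dif h hF hi
  have hmd := H795.D1.md_dif (u := fun X => cu n α (GX α f X)) hu hj'
  have hdf := H795.D1.df_dif (u := fun X => cu n α (GX α f X)) hu hj'
  refine DifferentiableOn.mul ?_ (hdf.const_add _).csin
  refine hg.comp (differentiableOn_id.mul ((hmd.const_add _).const_mul _).cexp) ?_
  intro X hX
  exact arg_lt hR (ball_subset_ball hs hX) _ (md_mem h (hF.adm hX) hj')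

section
variable {n p : ℕ}

theorem num_half (hp : 0 < p) (hpn : p < n) : ∃ e : ℝ, 0 < e ∧ Num n (Real.pi * p / n) (1 / 2) e := by
  have hn : (0 : ℝ) < n := by exact_mod_cast (hp.trans hpn)
  have hp' : (0 : ℝ) < p := by exact_mod_cast hp
  have hpn' : (p : ℝ) < n := by exact_mod_cast hpn
  have hs : 0 < Real.sin (Real.pi * p / n) := by
    apply Real.sin_pos_of_pos_of_lt_pi
    · positivity
    · rw [div_lt_iff₀ hn]; nlinarith [Real.pi_pos]
  exact ⟨(1 / 2) ^ 2 * Real.sin (Real.pi * p / n) ^ 2 / (5120 * (n : ℝ) ^ 4), by positivity,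
    hp.trans hpn, by norm_num, by norm_num, by positivity, hs, le_rfl⟩

/-- the first variation is analytic -/
theorem EV_analyticAt (hp : 0 < p) (hpn : p < n) {f g : ℂ → ℂ} (hf : AnalyticAt ℂ f 0)
    (hf0 : f 0 = 0) (hg : AnalyticAt ℂ g 0) : AnalyticAt ℂ (EV n (Real.pi * p / n) f g) 0 := by
  obtain ⟨e, he, hnum⟩ := num_half hp hpn
  obtain ⟨s₁, hs₁, hF⟩ := exists_Fam hf hf0 n (Real.pi * p / n) he
  obtain ⟨R, hR, hd, _⟩ := exists_ball hg
  have hmin : 0 < min s₁ (R / Real.exp 1) := by positivity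
  have hF' : Fam n (1 / 2) e (ball 0 (min s₁ (R / Real.exp 1))) (fun j X => GX (Real.pi * p / n) f X j) :=
    ⟨isOpen_ball, fun j hj => (hF.joint j hj).mono (prod_mono_left (ball_subset_ball (min_le_left _ _))),
      fun t ht j hj w hw => hF.bd t (ball_subset_ball (min_le_left _ _) ht) j hj w hw⟩
  exact (EV_dif hnum hR hd (min_le_right _ _) hF').analyticAt
    (isOpen_ball.mem_nhds (mem_ball_self hmin))

/-- [D1e] the linearised relation -/
theorem coeff_E (hp : 0 < p) (hpn : p < n) {f g : ℂ → ℂ} (hf : AnalyticAt ℂ f 0) (hf0 : f 0 = 0)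
    (hg : AnalyticAt ℂ g 0) {m : ℕ}
    (h : ∃ s₀ : ℝ, 0 < s₀ ∧ ∀ s : ℂ, ‖s‖ < s₀ → s ≠ 0 →
      HasDerivAt (fun t : ℂ => Fpn p n m (D1G.rot s (D1G.os (cT f)) +
        t • D1G.rot s (D1G.os (cT g)))) 0 0) :
    PowerSeries.coeff m (TS (EV n (Real.pi * p / n) f g)) = 0 := by
  obtain ⟨s₀, hs₀, hz⟩ := h
  obtain ⟨e, he, hnum⟩ := num_half hp hpn
  set α : ℝ := Real.pi * p / n with hα
  obtain ⟨s₁', hs₁', hF0⟩ := exists_Fam hf hf0 n α he
  obtain ⟨R, hR, hdg, hsg⟩ := exists_ball hg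
  obtain ⟨Rf, hRf, hdf, hsf⟩ := exists_ball hf
  obtain ⟨s₂, hs₂, hwn⟩ := exists_wn_small' hf hf0 (e := e / 2) (by positivity)
  obtain ⟨s₃, hs₃, hwg⟩ := exists_WS hg
  set s₁ : ℝ := min s₁' (min (R / Real.exp 1) (Rf / Real.exp 1)) with hs₁def
  have hs₁ : 0 < s₁ := by positivity
  have hle1 : s₁ ≤ s₁' := min_le_left _ _
  have hle2 : s₁ ≤ R / Real.exp 1 := (min_le_right _ _).trans (min_le_left _ _)
  have hle3 : s₁ ≤ Rf / Real.exp 1 := (min_le_right _ _).trans (min_le_right _ _)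
  have hFam : Fam n (1 / 2) e (ball 0 s₁) (fun j X => GX α f X j) :=
    ⟨isOpen_ball, fun j hj => (hF0.joint j hj).mono (prod_mono_left (ball_subset_ball hle1)),
      fun t ht j hj w hw => hF0.bd t (ball_subset_ball hle1 ht) j hj w hw⟩
  set s : ℝ := min (min s₂ s₃) (min s₀ s₁) / 2 with hsdef
  have hs0 : 0 < s := by positivity
  have hsmin : s < min (min s₂ s₃) (min s₀ s₁) := by
    have : 0 < min (min s₂ s₃) (min s₀ s₁) := by positivity
    rw [hsdef]; linarith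
  have hss2 : s < s₂ := hsmin.trans_le ((min_le_left _ _).trans (min_le_left _ _))
  have hss3 : s < s₃ := hsmin.trans_le ((min_le_left _ _).trans (min_le_right _ _))
  have hss0 : s < s₀ := hsmin.trans_le ((min_le_right _ _).trans (min_le_left _ _))
  have hss1 : s < s₁ := hsmin.trans_le ((min_le_right _ _).trans (min_le_right _ _))
  have hsc : (s : ℂ) ≠ 0 := Complex.ofReal_ne_zero.2 hs0.ne'
  have hns : ‖(s : ℂ)‖ = s := by rw [Complex.norm_real, Real.norm_of_nonneg hs0.le]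
  have hdc : DiffContOnCl ℂ (EV n α f g) (ball 0 s) := by
    refine ((EV_dif hnum hR hdg hle2 hFam).mono ?_).diffContOnCl
    exact closure_ball_subset_closedBall.trans (closedBall_subset_ball hss1)
  have h1 := fourier_taylor hs0 hdc m
  set A := D1G.rot (s : ℂ) (D1G.os (cT f)) with hA
  set B := D1G.rot (s : ℂ) (D1G.os (cT g)) with hB
  have hWA : WS 1 A := (hwn s (by rw [hns]; exact hss2)).1
  have hWB : WS 1 B := hwg s (by rw [hns]; exact hss3)
  have hwA : wn 1 (A + (0 : ℂ) • B) < e / 2 := by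
    rw [zero_smul, add_zero]
    exact (hwn s (by rw [hns]; exact hss2)).2
  have h2 := FM_hasDerivAt (coreAt holP hnum) one_pos hWA hWB (m : ℤ) hwA
  have h3 := (hz s (by rw [hns]; exact hss0) hsc).unique h2
  -- values of the functions
  have hval : ∀ {F : ℂ → ℂ} {RF : ℝ}, 0 < RF → s₁ ≤ RF / Real.exp 1 →
      (∀ z ∈ ball (0 : ℂ) RF, HasSum (fun k => cT F k * z ^ k) (F z)) →
      ∀ (y : ℝ) (w : ℂ), w ∈ ball (0 : ℂ) (1 / 2) →
      gs (D1G.rot (s : ℂ) (D1G.os (cT F))) (y + w) = F (s * Complex.exp (Complex.I * (y + w))) := by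
    intro F RF hRF hle hsum y w hw
    apply gs_osf
    apply hsum
    refine arg_lt hRF ?_ y hw
    rw [mem_ball, dist_zero_right, hns]
    exact hss1.trans_le hle
  have h4 : ∀ x : ℝ, deriv (fun t : ℂ => Phi (cv n α) α (A + t • B) x * ek (-(m : ℤ)) x) 0 =
      EV n α f g (s * Complex.exp (Complex.I * x)) * ek (-(m : ℤ)) x := by
    intro x
    obtain ⟨ρ, hρ, hball⟩ : ∃ ρ > 0, ∀ t ∈ ball (0 : ℂ) ρ, wn 1 (A + t • B) ≤ e / 2 := by
      refine ⟨(e / 2 - wn 1 A) / (1 + wn 1 B), ?_, fun t ht => ?_⟩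
      · rw [zero_smul, add_zero] at hwA
        exact div_pos (by linarith) (by linarith [wn_nonneg 1 B])
      · refine (wn_add_le hWA (hWB.smul _)).trans ?_
        rw [wn_smul]
        rw [mem_ball, dist_zero_right, lt_div_iff₀ (by linarith [wn_nonneg 1 B])] at ht
        nlinarith [wn_nonneg 1 B, norm_nonneg t]
    have key : ∀ (t : ℂ) (j : ℕ) (w : ℂ), w ∈ ball (0 : ℂ) (1 / 2) →
        gs (A + t • B) (x + (α * (2 * j + 1) : ℝ) + w) =
        gs A (x + (α * (2 * j + 1) : ℝ) + w) + t * gs B (x + (α * (2 * j + 1) : ℝ) + w) := by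
      intro t j w hw
      have him : |((x : ℂ) + (α * (2 * j + 1) : ℝ) + w).im| < 1 := by
        rw [im_shift, Complex.ofReal_im, zero_add]
        linarith [abs_im_lt hw]
      rw [gs_add hWA (hWB.smul t) him, gs_smul]
    have hfam : Fam n (1 / 2) e (ball 0 ρ)
        (fun j t w => gs (A + t • B) (x + (α * (2 * j + 1) : ℝ) + w)) := by
      refine ⟨isOpen_ball, fun j _ => ?_, fun t ht j _ w hw => ?_⟩
      · have hd : ∀ d : ℤ → ℂ, WS 1 d → DifferentiableOn ℂ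
            (fun q : ℂ × ℂ => gs d (x + (α * (2 * j + 1) : ℝ) + q.2))
            (ball (0 : ℂ) ρ ×ˢ ball (0 : ℂ) (1 / 2)) := by
          intro d hd
          have h2 : WS 1 (rot ((0 : ℝ) * Complex.I) d) := by rw [rot_zero']; exact hd
          refine (differentiableOn_gs (τ := 0) hd h2).comp ?_ ?_
          · exact (differentiable_snd.const_add _).differentiableOn
          · rintro ⟨t, w⟩ ⟨_, hw⟩
            rw [mem_Strip_zero, im_shift, Complex.ofReal_im, zero_add]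
            linarith [abs_im_lt hw]
        refine ((hd A hWA).add (differentiable_fst.differentiableOn.mul (hd B hWB))).congr ?_
        rintro ⟨t, w⟩ ⟨_, hw⟩
        exact key t j w hw
      · have him : |((x : ℂ) + (α * (2 * j + 1) : ℝ) + w).im| ≤ 1 := by
          rw [im_shift, Complex.ofReal_im, zero_add]
          linarith [abs_im_lt hw]
        refine (norm_gs_le' (hWA.add (hWB.smul t)) him).trans ?_
        linarith [hball t ht, wn_nonneg 1 (A + t • B)]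
    have h5 := H795.D1.cv_hasDerivAt hnum hfam (mem_ball_self hρ)
    have h6 : (fun t : ℂ => Phi (cv n α) α (A + t • B) x * ek (-(m : ℤ)) x) = fun t : ℂ =>
        cv n α (fun j w => gs (A + t • B) (x + (α * (2 * j + 1) : ℝ) + w)) * ek (-(m : ℤ)) x := rfl
    rw [h6, (h5.mul_const (ek (-(m : ℤ)) x)).deriv]
    congr 1
    set X : ℂ := s * Complex.exp (Complex.I * x) with hX
    have hXb : X ∈ ball (0 : ℂ) s₁ := by
      rw [mem_ball, dist_zero_right, hX, norm_mul, hns, Complex.norm_exp]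
      simp
      exact hss1
    have hexp : ∀ (j : ℕ) (w : ℂ), (s : ℂ) * Complex.exp (Complex.I *
        (((x + α * (2 * j + 1) : ℝ) : ℂ) + w)) =
        X * Complex.exp (Complex.I * ((α * (2 * j + 1) : ℝ) + w)) := by
      intro j w
      rw [hX, mul_assoc, ← Complex.exp_add]
      congr 2
      push_cast
      ring
    have hreal : ∀ (j : ℕ) (w : ℂ), (x : ℂ) + (α * (2 * j + 1) : ℝ) + w =
        ((x + α * (2 * j + 1) : ℝ) : ℂ) + w := by
      intro j w; push_cast; ring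
    -- the polygon
    have hpoly : ∀ i ≤ n, cu n α (fun (j : ℕ) (w : ℂ) =>
        gs (A + (0 : ℂ) • B) (x + (α * (2 * j + 1) : ℝ) + w)) i = cu n α (GX α f X) i := by
      intro i hi
      refine H795.D1.cu_congr hnum (hfam.adm (mem_ball_self hρ)) (fun j hj w hw => ?_) hi
      rw [zero_smul, add_zero, hA, hreal, hval hRf hle3 hsf _ w hw, hexp]
      rfl
    unfold EV
    refine Finset.sum_congr rfl fun j hj => ?_
    have hj' := Finset.mem_range.1 hj
    have emd : md (cu n α (fun (j : ℕ) (w : ℂ) =>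
        gs (A + (0 : ℂ) • B) (x + (α * (2 * j + 1) : ℝ) + w))) j = md (cu n α (GX α f X)) j := by
      unfold md; rw [hpoly j hj'.le, hpoly (j + 1) hj']
    have edf : df (cu n α (fun (j : ℕ) (w : ℂ) =>
        gs (A + (0 : ℂ) • B) (x + (α * (2 * j + 1) : ℝ) + w))) j = df (cu n α (GX α f X)) j := by
      unfold df; rw [hpoly j hj'.le, hpoly (j + 1) hj']
    rw [emd, edf]
    congr 1
    have hmd := md_mem hnum (hFam.adm hXb) hj'
    have h7 : (fun t : ℂ => gs (A + t • B) (x + (α * (2 * j + 1) : ℝ) + md (cu n α (GX α f X)) j)) =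
        fun t : ℂ => gs A (x + (α * (2 * j + 1) : ℝ) + md (cu n α (GX α f X)) j) +
          t * gs B (x + (α * (2 * j + 1) : ℝ) + md (cu n α (GX α f X)) j) := by
      funext t; exact key t j _ hmd
    rw [h7]
    have h8 : deriv (fun t : ℂ => gs A (x + (α * (2 * j + 1) : ℝ) + md (cu n α (GX α f X)) j) +
        t * gs B (x + (α * (2 * j + 1) : ℝ) + md (cu n α (GX α f X)) j)) 0 =
        gs B (x + (α * (2 * j + 1) : ℝ) + md (cu n α (GX α f X)) j) := by
      rw [deriv_const_add, deriv_mul_const differentiableAt_id]; simp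
    rw [h8, hB, hreal, hval hR hle2 hsg _ _ hmd, hexp]
  simp only [h4] at h3
  rw [h1] at h3
  have h9 : ((m.factorial : ℂ))⁻¹ * iteratedDeriv m (EV n α f g) 0 = 0 := by
    rcases mul_eq_zero.1 h3.symm with h5 | h5
    · exact absurd h5 (pow_ne_zero _ hsc)
    · exact h5
  rw [H809D.coeff_TS]
  exact h9

end

end Vale.Agent.P097.H500.G
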