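import Vale.Agent.P097.H500.G.Seq

/-! # P097 disc, D1a: the critical value as a function of the sequence, Fourier modes
(helper500) -/

set_option linter.all false

open MeasureTheory Set Filter Topology Metric

namespace Vale.Agent.P097.H500.G

/-- What the Picard core gives: the critical value `crit G` of the `n`-gon action with data
`G 0, …, G (n-1)`, holomorphic on the disc of radius `β` and bounded by `e` there. -/
structure CoreAt (n : ℕ) (α β e M : ℝ) (crit : (ℕ → ℂ → ℂ) → ℂ) : Prop where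
  bdd : ∀ G : ℕ → ℂ → ℂ, (∀ j < n, DifferentiableOn ℂ (G j) (ball 0 β)) →
    (∀ j < n, ∀ w ∈ ball (0 : ℂ) β, ‖G j w‖ ≤ e) → ‖crit G‖ ≤ M
  hol : ∀ (T : Set ℂ) (G : ℂ → ℕ → ℂ → ℂ), IsOpen T →
    (∀ j < n, DifferentiableOn ℂ (fun p : ℂ × ℂ => G p.1 j p.2) (T ×ˢ ball (0 : ℂ) β)) →
    (∀ t ∈ T, ∀ j < n, ∀ w ∈ ball (0 : ℂ) β, ‖G t j w‖ ≤ e) →
    DifferentiableOn ℂ (fun t => crit (G t)) T
  der : ∀ G : ℕ → ℂ → ℂ, (∀ j < n, DifferentiableOn ℂ (G j) (ball 0 β)) →
    (∀ j < n, ∀ w ∈ ball (0 : ℂ) β, ‖G j w‖ ≤ e) →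
    HasDerivAt (fun t : ℂ => crit (fun j w => t * G j w))
      (Real.sin α * ∑ j ∈ Finset.range n, G j 0) 0

/-- the critical value at the base point `z` -/
noncomputable def Phi (crit : (ℕ → ℂ → ℂ) → ℂ) (α : ℝ) (a : ℤ → ℂ) (z : ℂ) : ℂ :=
  crit fun j w => gs a (z + (α * (2 * j + 1) : ℝ) + w)

/-- its Fourier modes -/
noncomputable def FM (crit : (ℕ → ℂ → ℂ) → ℂ) (α : ℝ) (m : ℤ) (a : ℤ → ℂ) : ℂ :=
  (2 * Real.pi : ℂ)⁻¹ * ∫ x in (0 : ℝ)..(2 * Real.pi), Phi crit α a x * ek (-m) x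

section
variable {n : ℕ} {α b e M : ℝ} {crit : (ℕ → ℂ → ℂ) → ℂ}

theorem Phi_rot (crit : (ℕ → ℂ → ℂ) → ℂ) (α : ℝ) (a : ℤ → ℂ) (ζ z : ℂ) :
    Phi crit α (rot ζ a) z = Phi crit α a (ζ + z) := by
  unfold Phi
  congr 1
  funext j w
  rw [gs_rot]
  congr 1
  ring

theorem Phi_periodic (crit : (ℕ → ℂ → ℂ) → ℂ) (α : ℝ) (a : ℤ → ℂ) (z : ℂ) :
    Phi crit α a (z + 2 * Real.pi) = Phi crit α a z := by
  unfold Phi
  congr 1
  funext j w
  rw [← gs_periodic a (z + (α * (2 * j + 1) : ℝ) + w)]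
  congr 1
  ring

theorem im_shift (z : ℂ) (s : ℝ) (w : ℂ) : (z + (s : ℂ) + w).im = z.im + w.im := by
  simp

theorem abs_im_lt {w : ℂ} {β : ℝ} (hw : w ∈ ball (0 : ℂ) β) : |w.im| < β := by
  rw [mem_ball, dist_zero_right] at hw
  exact (Complex.abs_im_le_norm w).trans_lt hw

/-- `Phi a` is holomorphic around the closed strip between `0` and `τ`. -/
theorem Phi_diff (hC : CoreAt n α (b / 2) e M crit) {a : ℤ → ℂ} {τ : ℝ} (h1 : WS b a)
    (h2 : WS b (rot (τ * Complex.I) a)) (hR : wn b a + wn b (rot (τ * Complex.I) a) ≤ e) :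
    DifferentiableOn ℂ (Phi crit α a) (Strip (b / 2) τ) := by
  have hmem : ∀ z ∈ Strip (b / 2) τ, ∀ (s : ℝ), ∀ w ∈ ball (0 : ℂ) (b / 2),
      z + (s : ℂ) + w ∈ Strip b τ := by
    intro z hz s w hw
    obtain ⟨y, hy, hzy⟩ := hz
    refine ⟨y, hy, ?_⟩
    rw [im_shift]
    have h3 := abs_im_lt hw
    have h4 : z.im + w.im - y = (z.im - y) + w.im := by ring
    rw [h4]
    exact (abs_add_le _ _).trans_lt (by linarith)
  refine hC.hol (Strip (b / 2) τ) (fun z j w => gs a (z + (α * (2 * j + 1) : ℝ) + w))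
    (isOpen_Strip _ _) ?_ ?_
  · intro j _
    refine (differentiableOn_gs h1 h2).comp ?_ ?_
    · exact ((differentiable_fst.add_const _).add differentiable_snd).differentiableOn
    · rintro ⟨z, w⟩ ⟨hz, hw⟩
      exact hmem z hz _ w hw
  · intro z hz j _ w hw
    exact (norm_gs_le h1 h2 (hmem z hz _ w hw)).trans hR

theorem Phi_continuous (hC : CoreAt n α (b / 2) e M crit) {a : ℤ → ℂ} (hb : 0 < b) (h1 : WS b a)
    (hR : wn b a ≤ e / 2) : Continuous fun x : ℝ => Phi crit α a x := by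
  have h2 : WS b (rot ((0 : ℝ) * Complex.I) a) := by rw [rot_zero']; exact h1
  have h3 := Phi_diff (τ := 0) hC h1 h2 (by rw [rot_zero']; linarith)
  have h4 := h3.continuousOn
  rw [continuousOn_iff_continuous_restrict] at h4
  exact h4.comp (g := Set.restrict (Strip (b / 2) 0) (Phi crit α a))
    (f := fun x : ℝ => (⟨(x : ℂ), mem_Strip_zero.2 (by simpa using by positivity)⟩ :
      Strip (b / 2) 0)) (by fun_prop)

theorem norm_Phi_le (hC : CoreAt n α (b / 2) e M crit) {a : ℤ → ℂ} (hb : 0 < b) (h1 : WS b a)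
    (hR : wn b a ≤ e) {z : ℂ} (hz : |z.im| ≤ b / 2) : ‖Phi crit α a z‖ ≤ M := by
  have hmem : ∀ (s : ℝ), ∀ w ∈ ball (0 : ℂ) (b / 2), |(z + (s : ℂ) + w).im| < b := by
    intro s w hw
    rw [im_shift]
    exact (abs_add_le _ _).trans_lt (by linarith [abs_im_lt hw])
  refine hC.bdd _ ?_ ?_
  · intro j _
    have h2 : WS b (rot ((0 : ℝ) * Complex.I) a) := by rw [rot_zero']; exact h1
    refine (differentiableOn_gs (τ := 0) h1 h2).comp (by fun_prop) ?_
    intro w hw
    exact mem_Strip_zero.2 (hmem _ w hw)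
  · intro j _ w hw
    exact (norm_gs_le' h1 (hmem _ w hw).le).trans hR

theorem norm_integral_bound {f : ℝ → ℂ} {M : ℝ} (h : ∀ x, ‖f x‖ ≤ M) :
    ‖(2 * Real.pi : ℂ)⁻¹ * ∫ x in (0 : ℝ)..(2 * Real.pi), f x‖ ≤ M := by
  have h1 := intervalIntegral.norm_integral_le_of_norm_le_const (a := 0) (b := 2 * Real.pi)
    (f := f) (C := M) fun x _ => h x
  rw [sub_zero, abs_of_pos Real.two_pi_pos] at h1
  rw [norm_mul, norm_inv]
  have h2 : ‖(2 * Real.pi : ℂ)‖ = 2 * Real.pi := by
    rw [← Complex.ofReal_ofNat, ← Complex.ofReal_mul, Complex.norm_real,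
      Real.norm_of_nonneg Real.two_pi_pos.le]
  rw [h2, inv_mul_le_iff₀ Real.two_pi_pos]
  linarith

/-- (H), bound. -/
theorem FM_bound (hC : CoreAt n α (b / 2) e M crit) {a : ℤ → ℂ} (hb : 0 < b) (h1 : WS b a)
    (hR : wn b a ≤ e) (m : ℤ) : ‖FM crit α m a‖ ≤ M := by
  refine norm_integral_bound fun x => ?_
  rw [norm_mul, norm_ek_real, mul_one]
  exact norm_Phi_le hC hb h1 hR (by simpa using by positivity)

/-- (P1), complex rotation. -/
theorem FM_rot (hC : CoreAt n α (b / 2) e M crit) {a : ℤ → ℂ} (hb : 0 < b) {ζ : ℂ} (h1 : WS b a)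
    (h2 : WS b (rot ζ a)) (hR1 : wn b a ≤ e / 2) (hR2 : wn b (rot ζ a) ≤ e / 2) (m : ℤ) :
    FM crit α m (rot ζ a) = ek m ζ * FM crit α m a := by
  have hnorm : ∀ k, ‖rot (ζ.im * Complex.I) a k‖ = ‖rot ζ a k‖ := by
    intro k
    unfold rot
    rw [norm_mul, norm_mul, norm_ek, norm_ek]
    simp
  have h3 : WS b (rot (ζ.im * Complex.I) a) := by
    unfold WS at *
    simpa only [hnorm] using h2
  have h4 : wn b (rot (ζ.im * Complex.I) a) = wn b (rot ζ a) := by
    unfold wn; simp only [hnorm]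
  have hd := Phi_diff hC h1 h3 (by rw [h4]; linarith)
  set f : ℂ → ℂ := fun z => Phi crit α a z * ek (-m) z with hf
  have hfd : ∀ z : ℂ, z.im ∈ uIcc 0 ζ.im → DifferentiableAt ℂ f z := by
    intro z hz
    have hzS : z ∈ Strip (b / 2) ζ.im := ⟨z.im, hz, by simpa using by positivity⟩
    exact (hd.differentiableAt ((isOpen_Strip _ _).mem_nhds hzS)).mul
      (differentiable_ek (-m)).differentiableAt
  have hfper : ∀ z : ℂ, f (z + 2 * Real.pi) = f z := by
    intro z
    simp only [hf]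
    rw [Phi_periodic, ek_periodic]
  have h5 : ∫ x in (0 : ℝ)..(2 * Real.pi), f (x + ζ.re + ζ.im * Complex.I) =
      ∫ x in (0 : ℝ)..(2 * Real.pi), f x := by
    rw [← contour_shift hfd hfper]
    have hp : Function.Periodic (fun x : ℝ => f (x + ζ.im * Complex.I)) (2 * Real.pi) := by
      intro x
      show f (((x + 2 * Real.pi : ℝ) : ℂ) + ζ.im * Complex.I) = f ((x : ℂ) + ζ.im * Complex.I)
      rw [← hfper (x + ζ.im * Complex.I)]
      congr 1
      push_cast
      ring
    have h6 := hp.intervalIntegral_add_eq ζ.re 0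
    rw [zero_add] at h6
    rw [← h6]
    have h7 := intervalIntegral.integral_comp_add_right (a := 0) (b := 2 * Real.pi)
      (fun x : ℝ => f (x + ζ.im * Complex.I)) ζ.re
    rw [zero_add, add_comm (2 * Real.pi) ζ.re] at h7
    rw [← h7]
    refine intervalIntegral.integral_congr fun x _ => ?_
    show f _ = f _
    push_cast
    rfl
  unfold FM
  rw [← h5, ← intervalIntegral.integral_const_mul, ← intervalIntegral.integral_const_mul,
    ← intervalIntegral.integral_const_mul]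
  refine intervalIntegral.integral_congr fun x _ => ?_
  simp only [hf]
  have h8 : (x : ℂ) + ζ.re + ζ.im * Complex.I = ζ + x := by
    conv_rhs => rw [← Complex.re_add_im ζ]
    ring
  rw [h8, Phi_rot, ek_add (-m) ζ]
  have h9 := ek_neg_mul m ζ
  linear_combination (-(2 * (Real.pi : ℂ))⁻¹ * Phi crit α a (ζ + x) * ek (-m) x) * h9

/-- (H), holomorphy along lines. -/
theorem FM_hasDerivAt (hC : CoreAt n α (b / 2) e M crit) {a c : ℤ → ℂ} (hb : 0 < b) (h1 : WS b a)
    (h2 : WS b c) (m : ℤ) {t₀ : ℂ} (ht₀ : wn b (a + t₀ • c) < e / 2) :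
    HasDerivAt (fun t : ℂ => FM crit α m (a + t • c))
      ((2 * Real.pi : ℂ)⁻¹ * ∫ x in (0 : ℝ)..(2 * Real.pi),
        deriv (fun t : ℂ => Phi crit α (a + t • c) x * ek (-m) x) t₀) t₀ := by
  have hWS : ∀ t : ℂ, WS b (a + t • c) := fun t => h1.add (h2.smul t)
  -- an open neighbourhood on which the norm stays below
  obtain ⟨r, hr, hball⟩ : ∃ r > 0, ∀ t ∈ ball t₀ r, wn b (a + t • c) ≤ e / 2 := by
    refine ⟨(e / 2 - wn b (a + t₀ • c)) / (1 + wn b c),
      div_pos (by linarith) (by linarith [wn_nonneg b c]), fun t ht => ?_⟩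
    have h3 : a + t • c = (a + t₀ • c) + (t - t₀) • c := by
      rw [sub_smul]; abel
    rw [h3]
    refine (wn_add_le (hWS t₀) (h2.smul _)).trans ?_
    rw [wn_smul]
    rw [mem_ball, dist_eq_norm, lt_div_iff₀ (by linarith [wn_nonneg b c])] at ht
    nlinarith [wn_nonneg b c, norm_nonneg (t - t₀)]
  refine HasDerivAt.const_mul _ ?_
  refine hasDerivAt_param (T := ball t₀ r) (M := M) isOpen_ball
    (φ := fun x t => Phi crit α (a + t • c) x * ek (-m) x) ?_ ?_ ?_ _ _ (mem_ball_self hr)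
  · intro t ht
    have h4 := Phi_continuous hC hb (hWS t) (hball t ht)
    have h5 := (differentiable_ek (-m)).continuous
    exact h4.mul (h5.comp Complex.continuous_ofReal)
  · intro x
    refine DifferentiableOn.mul_const ?_ _
    have key : ∀ (t : ℂ) (j : ℕ) (w : ℂ), w ∈ ball (0 : ℂ) (b / 2) →
        gs (a + t • c) (x + (α * (2 * j + 1) : ℝ) + w) =
        gs a (x + (α * (2 * j + 1) : ℝ) + w) + t * gs c (x + (α * (2 * j + 1) : ℝ) + w) := by
      intro t j w hw
      have him : |((x : ℂ) + (α * (2 * j + 1) : ℝ) + w).im| < b := by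
        rw [im_shift, Complex.ofReal_im, zero_add]
        linarith [abs_im_lt hw]
      rw [gs_add h1 (h2.smul t) him, gs_smul]
    refine hC.hol (ball t₀ r) (fun t j w => gs (a + t • c) (x + (α * (2 * j + 1) : ℝ) + w))
      isOpen_ball ?_ ?_
    · intro j _
      have hd : ∀ d : ℤ → ℂ, WS b d → DifferentiableOn ℂ
          (fun p : ℂ × ℂ => gs d (x + (α * (2 * j + 1) : ℝ) + p.2))
          (ball t₀ r ×ˢ ball (0 : ℂ) (b / 2)) := by
        intro d hd
        have h2 : WS b (rot ((0 : ℝ) * Complex.I) d) := by rw [rot_zero']; exact hd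
        refine (differentiableOn_gs (τ := 0) hd h2).comp ?_ ?_
        · exact (differentiable_snd.const_add _).differentiableOn
        · rintro ⟨t, w⟩ ⟨_, hw⟩
          rw [mem_Strip_zero, im_shift, Complex.ofReal_im, zero_add]
          linarith [abs_im_lt hw]
      refine ((hd a h1).add (differentiable_fst.differentiableOn.mul (hd c h2))).congr ?_
      rintro ⟨t, w⟩ ⟨_, hw⟩
      exact key t j w hw
    · intro t ht j _ w hw
      have him : |((x : ℂ) + (α * (2 * j + 1) : ℝ) + w).im| ≤ b := by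
        rw [im_shift, Complex.ofReal_im, zero_add]
        linarith [abs_im_lt hw]
      refine (norm_gs_le' (hWS t) him).trans ?_
      linarith [hball t ht, wn_nonneg b (a + t • c)]
  · intro x t ht
    rw [norm_mul, norm_ek_real, mul_one]
    exact norm_Phi_le hC hb (hWS t) (by linarith [hball t ht, wn_nonneg b (a + t • c)])
      (by simpa using by positivity)

/-- (H), holomorphy along lines. -/
theorem FM_differentiableOn (hC : CoreAt n α (b / 2) e M crit) {a c : ℤ → ℂ} (hb : 0 < b)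
    (h1 : WS b a) (h2 : WS b c) (m : ℤ) :
    DifferentiableOn ℂ (fun t : ℂ => FM crit α m (a + t • c)) {t | wn b (a + t • c) < e / 2} :=
  fun t ht => (FM_hasDerivAt hC hb h1 h2 m ht).differentiableAt.differentiableWithinAt

/-- the derivative at the disc -/
theorem FM_deriv_zero (hC : CoreAt n α (b / 2) e M crit) {c : ℤ → ℂ} (hb : 0 < b) (he : 0 < e)
    (h2 : WS b c) (hc : wn b c ≤ e) (m : ℤ) :
    HasDerivAt (fun t : ℂ => FM crit α m (t • c))
      (Real.sin α * (∑ j ∈ Finset.range n, ek m ((α * (2 * j + 1) : ℝ) : ℂ)) * c m) 0 := by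
  have h0 : WS b (0 : ℤ → ℂ) := by
    unfold WS; simpa using summable_zero
  have hw0 : wn b (0 : ℤ → ℂ) = 0 := by unfold wn; simp
  have h3 := FM_hasDerivAt (a := 0) (t₀ := 0) hC hb h0 h2 m (by
    rw [zero_smul, zero_add, hw0]; positivity)
  simp only [zero_add] at h3
  convert h3 using 1
  have h4 : ∀ x : ℝ, deriv (fun t : ℂ => Phi crit α (t • c) x * ek (-m) x) 0 =
      ∑ j ∈ Finset.range n, (Real.sin α : ℂ) * (gs c (x + ((α * (2 * j + 1) : ℝ) : ℂ)) * ek (-m) x) := by
    intro x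
    have h5 := hC.der (fun j w => gs c (x + (α * (2 * j + 1) : ℝ) + w)) (by
      intro j _
      have h2' : WS b (rot ((0 : ℝ) * Complex.I) c) := by rw [rot_zero']; exact h2
      refine (differentiableOn_gs (τ := 0) h2 h2').comp (by fun_prop) ?_
      intro w hw
      rw [mem_Strip_zero, im_shift, Complex.ofReal_im, zero_add]
      linarith [abs_im_lt hw]) (by
      intro j _ w hw
      refine (norm_gs_le' h2 ?_).trans hc
      rw [im_shift, Complex.ofReal_im, zero_add]
      linarith [abs_im_lt hw])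
    have h6 : (fun t : ℂ => Phi crit α (t • c) x * ek (-m) x) = fun t : ℂ =>
        crit (fun j w => t * gs c (x + (α * (2 * j + 1) : ℝ) + w)) * ek (-m) x := by
      funext t
      unfold Phi
      simp only [gs_smul]
    rw [h6, (h5.mul_const (ek (-m) x)).deriv, Finset.mul_sum, Finset.sum_mul]
    refine Finset.sum_congr rfl fun j _ => ?_
    rw [add_zero]
    ring
  simp only [h4]
  rw [intervalIntegral.integral_finset_sum]
  · simp only [intervalIntegral.integral_const_mul]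
    have h7 : ∀ j : ℕ, ∫ x in (0 : ℝ)..(2 * Real.pi),
        gs c (x + ((α * (2 * j + 1) : ℝ) : ℂ)) * ek (-m) x =
        2 * Real.pi * (c m * ek m ((α * (2 * j + 1) : ℝ) : ℂ)) := fun j => integral_gs hb h2 m _
    simp only [h7]
    rw [Finset.mul_sum, Finset.mul_sum, Finset.sum_mul]
    refine Finset.sum_congr rfl fun j _ => ?_
    have hpi : (Real.pi : ℂ) ≠ 0 := Complex.ofReal_ne_zero.2 Real.pi_ne_zero
    field_simp
  · intro j _
    have h2' : WS b (rot ((0 : ℝ) * Complex.I) c) := by rw [rot_zero']; exact h2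
    have hcont : Continuous fun x : ℝ => gs c (x + ((α * (2 * j + 1) : ℝ) : ℂ)) := by
      have h8 := (differentiableOn_gs (τ := 0) h2 h2').continuousOn
      rw [continuousOn_iff_continuous_restrict] at h8
      exact h8.comp (g := Set.restrict (Strip b 0) (gs c))
        (f := fun x : ℝ => (⟨(x : ℂ) + ((α * (2 * j + 1) : ℝ) : ℂ), mem_Strip_zero.2
          (by simpa using hb)⟩ : Strip b 0)) (by fun_prop)
    exact ((continuous_const.mul (hcont.mul
      ((differentiable_ek (-m)).continuous.comp Complex.continuous_ofReal)))).intervalIntegrable _ _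

end

end Vale.Agent.P097.H500.G
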