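import Vale.Agent.P097.H500.G.Bridge

/-! # P097 disc, D1e: the linearised relation at a one-sided table (helper500) -/

set_option linter.all false

open MeasureTheory Set Filter Topology Metric

namespace Vale.Agent.P097.H500.G

open H795.D1 (Num Adm Fam cu cv md df cr)
open H809D (HH DH TS)

theorem os_support {r : ℕ} {c : ℕ → ℂ} {k : ℤ}
    (hk : k ∉ (Finset.range (r + 1)).map (⟨Nat.cast, Nat.cast_injective⟩ : ℕ ↪ ℤ)) :
    D1G.tr r (D1G.os c) k = 0 := by
  unfold D1G.tr D1G.os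
  by_cases h7 : |k| ≤ (r : ℤ)
  · rw [if_pos h7]
    by_cases h8 : 0 ≤ k
    · exfalso
      apply hk
      rw [Finset.mem_map]
      refine ⟨k.toNat, ?_, Int.toNat_of_nonneg h8⟩
      rw [Finset.mem_range]
      rw [abs_of_nonneg h8] at h7
      omega
    · rw [if_neg h8]
  · rw [if_neg h7]

theorem rot_os {r m : ℕ} (hm : m ≤ r) (c : ℕ → ℂ) (s : ℂ) :
    D1G.rot s (D1G.tr r (D1G.os c)) (m : ℤ) = s ^ m * c m := by
  unfold D1G.rot D1G.tr D1G.os
  have h4 : |(m : ℤ)| ≤ (r : ℤ) := by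
    rw [abs_of_nonneg (by positivity)]; exact_mod_cast hm
  rw [if_pos h4, if_pos (by positivity), Int.toNat_natCast, zpow_natCast]

theorem gs_os (c : ℕ → ℂ) (r : ℕ) (s v : ℂ) :
    gs (D1G.rot s (D1G.tr r (D1G.os c))) v = HH c r (s * Complex.exp (Complex.I * v)) := by
  unfold gs
  rw [tsum_eq_sum (s := (Finset.range (r + 1)).map ⟨Nat.cast, Nat.cast_injective⟩)]
  · rw [Finset.sum_map]
    unfold HH
    refine Finset.sum_congr rfl fun m hm => ?_
    have hm' : m ≤ r := Nat.lt_succ_iff.1 (Finset.mem_range.1 hm)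
    simp only [Function.Embedding.coeFn_mk]
    rw [rot_os hm']
    have h5 : ek (m : ℤ) v = Complex.exp (Complex.I * v) ^ m := by
      unfold ek
      rw [← Complex.exp_nat_mul]
      congr 1
      push_cast
      ring
    rw [h5, mul_pow]
    ring
  · intro k hk
    unfold D1G.rot
    rw [os_support hk]; simp

theorem WS_os (b : ℝ) (c : ℕ → ℂ) (r : ℕ) (s : ℂ) : WS b (D1G.rot s (D1G.tr r (D1G.os c))) := by
  unfold WS
  refine summable_of_ne_finset_zero (s := (Finset.range (r + 1)).map ⟨Nat.cast, Nat.cast_injective⟩)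
    fun k hk => ?_
  unfold D1G.rot
  rw [os_support hk]; simp

theorem wn_os (b : ℝ) (c : ℕ → ℂ) (r : ℕ) (s : ℂ) : wn b (D1G.rot s (D1G.tr r (D1G.os c))) =
    ∑ m ∈ Finset.range (r + 1), ‖s‖ ^ m * ‖c m‖ * Real.exp (b * m) := by
  unfold wn
  rw [tsum_eq_sum (s := (Finset.range (r + 1)).map ⟨Nat.cast, Nat.cast_injective⟩)]
  · rw [Finset.sum_map]
    refine Finset.sum_congr rfl fun m hm => ?_
    have hm' : m ≤ r := Nat.lt_succ_iff.1 (Finset.mem_range.1 hm)
    simp only [Function.Embedding.coeFn_mk]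
    rw [rot_os hm', norm_mul, norm_pow]
    simp
  · intro k hk
    unfold D1G.rot
    rw [os_support hk]; simp

/-- the norm of the scaled truncated sequence is small -/
theorem exists_wn_small (b : ℝ) {c : ℕ → ℂ} (hc0 : c 0 = 0) (r : ℕ) {e : ℝ} (he : 0 < e) :
    ∃ s₂ : ℝ, 0 < s₂ ∧ ∀ s : ℂ, ‖s‖ < s₂ → wn b (D1G.rot s (D1G.tr r (D1G.os c))) < e := by
  have h1 : Continuous fun x : ℝ => ∑ m ∈ Finset.range (r + 1), x ^ m * ‖c m‖ * Real.exp (b * m) := by
    fun_prop
  have h0 : (∑ m ∈ Finset.range (r + 1), (0 : ℝ) ^ m * ‖c m‖ * Real.exp (b * m)) = 0 := by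
    refine Finset.sum_eq_zero fun m _ => ?_
    rcases Nat.eq_zero_or_pos m with h | h
    · subst h; simp [hc0]
    · simp [h.ne']
  have h2 := h1.continuousAt (x := 0)
  rw [Metric.continuousAt_iff] at h2
  obtain ⟨δ, hδ, h3⟩ := h2 e he
  refine ⟨δ, hδ, fun s hs => ?_⟩
  rw [wn_os]
  have h4 := h3 (x := ‖s‖) (by rwa [dist_zero_right, norm_norm])
  rw [h0, dist_zero_right] at h4
  exact (le_abs_self _).trans_lt h4

/-- the integrand of the first variation -/
noncomputable def VV (a g : ℕ → ℂ) (r n : ℕ) (α : ℝ) (X : ℂ) : ℂ :=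
  ∑ j ∈ Finset.range n, HH g r (H809D.wj (YY a r α n) j X) *
    Complex.sin (H809D.dl (YY a r α n) j X)

theorem VV_dif {a g : ℕ → ℂ} {r n : ℕ} {α e s₁ : ℝ} (h : Num n α (1 / 2) e)
    (hF : Fam n (1 / 2) e (ball 0 s₁) (GG a r α)) :
    DifferentiableOn ℂ (VV a g r n α) (ball 0 s₁) := by
  unfold VV
  refine DifferentiableOn.fun_sum fun j hj => ?_
  have hj' := Finset.mem_range.1 hj
  have hu : ∀ i ≤ n, DifferentiableOn ℂ (fun X => cu n α (fun i => GG a r α i X) i) (ball 0 s₁) :=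
    fun i hi => H795.D1.cu_dif h hF hi
  have hmd := H795.D1.md_dif (u := fun X => cu n α (fun i => GG a r α i X)) hu hj'
  have hdf := H795.D1.df_dif (u := fun X => cu n α (fun i => GG a r α i X)) hu hj'
  have h1 : DifferentiableOn ℂ (fun X => H809D.wj (YY a r α n) j X) (ball 0 s₁) := by
    unfold H809D.wj
    simp only [ps_YY]
    exact differentiableOn_id.mul ((hmd.const_add _).const_mul _).cexp
  have h2 : DifferentiableOn ℂ (fun X => H809D.dl (YY a r α n) j X) (ball 0 s₁) := by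
    simp only [dl_YY]
    exact hdf.const_add _
  exact ((HH_differentiable g r).comp_differentiableOn h1).mul h2.csin

/-- [D1e] first variation: vanishing of the derivatives of the Fourier modes gives the vanishing of
the Taylor coefficients of the first variation along the critical configuration. -/
theorem coeff_of_FR {a c g : ℕ → ℂ} {r n p : ℕ} (hp : 0 < p) (hpn : p < n) (ha : a 0 = 1)
    (hc0 : c 0 = 0) (hac : ∀ m, 1 ≤ m → a m = c m)
    (hF : ∀ m, 1 ≤ m → m ≤ r → ∃ s₀ : ℝ, 0 < s₀ ∧ ∀ s : ℂ, ‖s‖ < s₀ → s ≠ 0 →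
      HasDerivAt (fun t : ℂ => Fpn p n m (D1G.rot s (D1G.tr r (D1G.os c)) +
        t • D1G.rot s (D1G.tr r (D1G.os g)))) 0 0) :
    H809D.Crit a r n p (YY a r (Real.pi * p / n) n) ∧
    ∀ k, 1 ≤ k → k ≤ r → PowerSeries.coeff k (TS (VV a g r n (Real.pi * p / n))) = 0 := by
  have hn : (0 : ℝ) < n := by exact_mod_cast (hp.trans hpn)
  have hp' : (0 : ℝ) < p := by exact_mod_cast hp
  have hpn' : (p : ℝ) < n := by exact_mod_cast hpn
  set α : ℝ := Real.pi * p / n with hα
  have hs : 0 < Real.sin α := by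
    apply Real.sin_pos_of_pos_of_lt_pi
    · positivity
    · rw [hα, div_lt_iff₀ hn]; nlinarith [Real.pi_pos]
  set e : ℝ := (1 / 2) ^ 2 * Real.sin α ^ 2 / (5120 * (n : ℝ) ^ 4) with he
  have he0 : 0 < e := by positivity
  have hnum : Num n α (1 / 2) e := ⟨hp.trans hpn, by norm_num, by norm_num, he0.le, hs, le_rfl⟩
  obtain ⟨s₁, hs₁, hsm⟩ := exists_small ha r α he0
  have hFam : Fam n (1 / 2) e (ball 0 s₁) (GG a r α) :=
    ⟨isOpen_ball, fun j _ => (GG_differentiable a r α j).differentiableOn,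
      fun t ht j _ w hw => hsm t ht j w hw⟩
  refine ⟨crit_YY hα (hp.trans hpn) hnum ha hs₁ hFam, ?_⟩
  intro k hk hkr
  obtain ⟨s₀, hs₀, hz⟩ := hF k hk hkr
  obtain ⟨s₂, hs₂, hwn⟩ := exists_wn_small 1 hc0 r (e := e / 2) (by positivity)
  have hHH : ∀ X : ℂ, HH c r X = HH a r X - 1 := by
    intro X
    unfold HH
    rw [Finset.sum_range_succ', Finset.sum_range_succ', ha, hc0]
    have : ∀ m ∈ Finset.range r, c (m + 1) * X ^ (m + 1) = a (m + 1) * X ^ (m + 1) := fun m _ => by
      rw [hac (m + 1) (by omega)]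
    rw [Finset.sum_congr rfl this]
    simp
  set s : ℝ := min s₂ (min s₀ s₁) / 2 with hsdef
  have hs0 : 0 < s := by positivity
  have hss2 : s < s₂ := by
    have := min_le_left s₂ (min s₀ s₁)
    rw [hsdef]; linarith
  have hss0 : s < s₀ := by
    have := (min_le_right s₂ (min s₀ s₁)).trans (min_le_left s₀ s₁)
    rw [hsdef]; linarith
  have hss1 : s < s₁ := by
    have := (min_le_right s₂ (min s₀ s₁)).trans (min_le_right s₀ s₁)
    rw [hsdef]; linarith
  have hsc : (s : ℂ) ≠ 0 := Complex.ofReal_ne_zero.2 hs0.ne'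
  have hns : ‖(s : ℂ)‖ = s := by rw [Complex.norm_real, Real.norm_of_nonneg hs0.le]
  have hdc : DiffContOnCl ℂ (VV a g r n α) (ball 0 s) := by
    refine ((VV_dif hnum hFam).mono ?_).diffContOnCl
    exact closure_ball_subset_closedBall.trans (closedBall_subset_ball hss1)
  have h1 := fourier_taylor hs0 hdc k
  set A := D1G.rot (s : ℂ) (D1G.tr r (D1G.os c)) with hA
  set B := D1G.rot (s : ℂ) (D1G.tr r (D1G.os g)) with hB
  have hWA : WS 1 A := WS_os 1 c r s
  have hWB : WS 1 B := WS_os 1 g r s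
  have hwA : wn 1 (A + (0 : ℂ) • B) < e / 2 := by
    rw [zero_smul, add_zero]
    exact hwn s (by rw [hns]; exact hss2)
  have h2 := FM_hasDerivAt (coreAt holP hnum) one_pos hWA hWB (k : ℤ) hwA
  have h3 := (hz s (by rw [hns]; exact hss0) hsc).unique h2
  -- the integrand
  have h4 : ∀ x : ℝ, deriv (fun t : ℂ => Phi (cv n α) α (A + t • B) x * ek (-(k : ℤ)) x) 0 =
      VV a g r n α (s * Complex.exp (Complex.I * x)) * ek (-(k : ℤ)) x := by
    intro x
    -- neighbourhood of `0` on which the norm stays below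
    obtain ⟨ρ, hρ, hball⟩ : ∃ ρ > 0, ∀ t ∈ ball (0 : ℂ) ρ, wn 1 (A + t • B) ≤ e / 2 := by
      refine ⟨(e / 2 - wn 1 A) / (1 + wn 1 B), ?_, fun t ht => ?_⟩
      · rw [zero_smul, add_zero] at hwA
        exact div_pos (by linarith) (by linarith [wn_nonneg 1 B])
      · refine (wn_add_le hWA (hWB.smul _)).trans ?_
        rw [wn_smul]
        rw [mem_ball, dist_zero_right, lt_div_iff₀ (by linarith [wn_nonneg 1 B])] at ht
        nlinarith [wn_nonneg 1 B, norm_nonneg t]
    have key : ∀ (t : ℂ) (j : ℕ) (w : ℂ), w ∈ ball (0 : ℂ) (1 / 2) →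
        gs (A + t • B) (x + (α * (2 * j + 1) : ℝ) + w) =
        gs A (x + (α * (2 * j + 1) : ℝ) + w) + t * gs B (x + (α * (2 * j + 1) : ℝ) + w) := by
      intro t j w hw
      have him : |((x : ℂ) + (α * (2 * j + 1) : ℝ) + w).im| < 1 := by
        rw [im_shift, Complex.ofReal_im, zero_add]
        linarith [abs_im_lt hw]
      rw [gs_add hWA (hWB.smul t) him, gs_smul]
    have hfam : Fam n (1 / 2) e (ball 0 ρ)
        (fun j t w => gs (A + t • B) (x + (α * (2 * j + 1) : ℝ) + w)) := by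
      refine ⟨isOpen_ball, fun j _ => ?_, fun t ht j _ w hw => ?_⟩
      · have hd : ∀ d : ℤ → ℂ, WS 1 d → DifferentiableOn ℂ
            (fun q : ℂ × ℂ => gs d (x + (α * (2 * j + 1) : ℝ) + q.2))
            (ball (0 : ℂ) ρ ×ˢ ball (0 : ℂ) (1 / 2)) := by
          intro d hd
          have h2 : WS 1 (rot ((0 : ℝ) * Complex.I) d) := by rw [rot_zero']; exact hd
          refine (differentiableOn_gs (τ := 0) hd h2).comp ?_ ?_
          · exact (differentiable_snd.const_add _).differentiableOn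
          · rintro ⟨t, w⟩ ⟨_, hw⟩
            rw [mem_Strip_zero, im_shift, Complex.ofReal_im, zero_add]
            linarith [abs_im_lt hw]
        refine ((hd A hWA).add (differentiable_fst.differentiableOn.mul (hd B hWB))).congr ?_
        rintro ⟨t, w⟩ ⟨_, hw⟩
        exact key t j w hw
      · have him : |((x : ℂ) + (α * (2 * j + 1) : ℝ) + w).im| ≤ 1 := by
          rw [im_shift, Complex.ofReal_im, zero_add]
          linarith [abs_im_lt hw]
        refine (norm_gs_le' (hWA.add (hWB.smul t)) him).trans ?_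
        linarith [hball t ht, wn_nonneg 1 (A + t • B)]
    have h5 := H795.D1.cv_hasDerivAt hnum hfam (mem_ball_self hρ)
    have h6 : (fun t : ℂ => Phi (cv n α) α (A + t • B) x * ek (-(k : ℤ)) x) = fun t : ℂ =>
        cv n α (fun j w => gs (A + t • B) (x + (α * (2 * j + 1) : ℝ) + w)) * ek (-(k : ℤ)) x := rfl
    rw [h6, (h5.mul_const (ek (-(k : ℤ)) x)).deriv]
    congr 1
    -- the polygon
    have hpoly : (fun (j : ℕ) (w : ℂ) => gs (A + (0 : ℂ) • B) (x + (α * (2 * j + 1) : ℝ) + w)) =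
        fun i => GG a r α i (s * Complex.exp (Complex.I * x)) := by
      funext j w
      rw [zero_smul, add_zero, hA, gs_os, hHH]
      unfold GG
      rw [mul_assoc, ← Complex.exp_add, mul_add Complex.I, mul_add Complex.I, mul_add Complex.I,
        add_assoc]
    rw [hpoly]
    unfold VV
    refine Finset.sum_congr rfl fun j hj => ?_
    have hj' := Finset.mem_range.1 hj
    set X : ℂ := s * Complex.exp (Complex.I * x) with hX
    have hXb : X ∈ ball (0 : ℂ) s₁ := by
      rw [mem_ball, dist_zero_right, hX, norm_mul, hns, Complex.norm_exp]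
      simp
      exact hss1
    set u := cu n α (fun i => GG a r α i X) with hu
    have hmd : md u j ∈ ball (0 : ℂ) (1 / 2) := by
      rw [mem_ball, dist_zero_right]
      have h7 : ∀ i ≤ n, ‖u i‖ ≤ H795.D1.rho n α (1 / 2) := fun i hi =>
        H795.D1.cu_le' hnum (hFam.adm hXb) hi
      have h8 := H795.D1.md_le hj' h7
      have h9 := H795.D1.rho_le hnum
      linarith
    rw [dl_YY]
    congr 1
    have h7 : (fun t : ℂ => gs (A + t • B) (x + (α * (2 * j + 1) : ℝ) + md u j)) = fun t : ℂ =>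
        gs A (x + (α * (2 * j + 1) : ℝ) + md u j) + t * gs B (x + (α * (2 * j + 1) : ℝ) + md u j) := by
      funext t; exact key t j _ hmd
    rw [h7]
    have h8 : deriv (fun t : ℂ => gs A (x + (α * (2 * j + 1) : ℝ) + md u j) +
        t * gs B (x + (α * (2 * j + 1) : ℝ) + md u j)) 0 = gs B (x + (α * (2 * j + 1) : ℝ) + md u j) := by
      rw [deriv_const_add, deriv_mul_const differentiableAt_id]; simp
    rw [h8, hB, gs_os]
    congr 1
    unfold H809D.wj
    rw [ps_YY, hX, mul_assoc, ← Complex.exp_add, ← mul_add Complex.I, add_assoc]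
  simp only [h4] at h3
  rw [h1] at h3
  have h9 : ((k.factorial : ℂ))⁻¹ * iteratedDeriv k (VV a g r n α) 0 = 0 := by
    rcases mul_eq_zero.1 h3.symm with h5 | h5
    · exact absurd h5 (pow_ne_zero _ hsc)
    · exact h5
  rw [H809D.coeff_TS]
  exact h9

end Vale.Agent.P097.H500.G
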