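import Vale.Agent.P097.H500.G.Out
import Vale.Agent.P097.H795.D1.Hol

/-! # P097 disc, D1a: the functionals of the regular polygons (helper500) -/

set_option linter.all false

open MeasureTheory Set Filter Topology Metric

namespace Vale.Agent.P097.H500.G

open H795.D1 (Num Adm cu cv md df cr)

/-- holomorphic dependence and envelope formula -/
def HolP : Prop := ∀ (n : ℕ) (α b e : ℝ), Num n α b e → ∀ (U : Set ℂ) (G : ℕ → ℂ → ℂ → ℂ),
  IsOpen U → (∀ j < n, DifferentiableOn ℂ (fun p : ℂ × ℂ => G j p.1 p.2) (U ×ˢ ball (0 : ℂ) b)) →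
  (∀ t ∈ U, Adm n b e (fun j => G j t)) →
  ∀ t ∈ U, HasDerivAt (fun t => cv n α (fun j => G j t))
    (∑ j ∈ Finset.range n, deriv (fun s => G j s (md (cu n α (fun j => G j t)) j)) t *
      Complex.sin (α + df (cu n α (fun j => G j t)) j)) t

/-- 795's theorem -/
theorem holP : HolP := fun n α b e h U G hU hj hA t ht =>
  H795.D1.cv_hasDerivAt h ⟨hU, hj, fun t ht j hj w hw => (hA t ht).bd j hj w hw⟩ ht

theorem coreAt (H : HolP) {n : ℕ} {α β e : ℝ} (h : Num n α β e) :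
    CoreAt n α β e (4 * n) (cv n α) where
  bdd := fun G h1 h2 => H795.D1.cv_le h ⟨h1, h2⟩
  hol := fun T G hT h1 h2 t ht => by
    refine (H n α β e h T (fun j t w => G t j w) hT h1 (fun t ht => ⟨fun j hj => ?_, h2 t ht⟩)
      t ht).differentiableAt.differentiableWithinAt
    have h3 := (h1 j hj).comp (f := fun w : ℂ => (t, w)) (s := ball (0 : ℂ) β) (by fun_prop)
      (fun w hw => ⟨ht, hw⟩)
    exact h3
  der := fun G h1 h2 => by
    have hA : ∀ t ∈ ball (0 : ℂ) 1, Adm n β e (fun j w => t * G j w) := by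
      intro t ht
      refine ⟨fun j hj => (h1 j hj).const_mul t, fun j hj w hw => ?_⟩
      rw [norm_mul]
      rw [mem_ball, dist_zero_right] at ht
      calc ‖t‖ * ‖G j w‖ ≤ 1 * e := by
            gcongr
            exact h2 j hj w hw
        _ = e := one_mul e
    have h0 : (0 : ℂ) ∈ ball (0 : ℂ) 1 := mem_ball_self one_pos
    have h3 := H n α β e h (ball 0 1) (fun j t w => t * G j w) isOpen_ball (fun j hj => by
      refine DifferentiableOn.mul differentiable_fst.differentiableOn ?_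
      exact (h1 j hj).comp differentiable_snd.differentiableOn fun p hp => hp.2) hA 0 h0
    have hcu : ∀ i ≤ n, (0 : ℕ → ℂ) i = cu n α (fun j w => (0 : ℂ) * G j w) i := by
      refine H795.D1.cu_unique h (hA 0 h0) rfl rfl (fun i _ => ?_) (fun j hj => ?_)
      · simpa using (H795.D1.rho_pos h).le
      · have hd : ∀ (i : ℕ) (x : ℂ), deriv (fun w => (0 : ℂ) * G i w) x = 0 := by
          intro i x; simp
        simp [H795.D1.cr, hd, H795.D1.md, H795.D1.df]
    convert h3 using 1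
    push_cast
    rw [Finset.mul_sum]
    refine Finset.sum_congr rfl fun j hj => ?_
    have hj' := Finset.mem_range.1 hj
    have e1 : md (cu n α (fun j w => (0 : ℂ) * G j w)) j = 0 := by
      unfold md; rw [← hcu j hj'.le, ← hcu (j + 1) hj']; simp
    have e2 : df (cu n α (fun j w => (0 : ℂ) * G j w)) j = 0 := by
      unfold df; rw [← hcu j hj'.le, ← hcu (j + 1) hj']; simp
    rw [e1, e2, add_zero]
    have e3 : deriv (fun s : ℂ => s * G j 0) 0 = G j 0 := by
      rw [deriv_mul_const differentiableAt_id]; simp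
    rw [e3, mul_comm]

/-- the functional of the `p/n`-gons -/
noncomputable def Fpn (p n : ℕ) (m : ℕ) (a : ℤ → ℂ) : ℂ :=
  FM (cv n (Real.pi * p / n)) (Real.pi * p / n) m a

/-- general `p/n` -/
theorem fun_pn (H : HolP) {p n : ℕ} (hp : 0 < p) (hpn : p < n) {b : ℝ} (hb : 0 < b) (hb1 : b ≤ 1)
    (m : ℕ) :
    ∃ R M : ℝ, D1G.Fun b R M m (Lc n (Real.pi * p / n) m) (Fpn p n m) := by
  have hn : (0 : ℝ) < n := by exact_mod_cast (hp.trans hpn)
  have hn1 : (1 : ℝ) ≤ n := by exact_mod_cast (hp.trans hpn)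
  have hp' : (0 : ℝ) < p := by exact_mod_cast hp
  have hpn' : (p : ℝ) < n := by exact_mod_cast hpn
  have hs : 0 < Real.sin (Real.pi * p / n) := by
    apply Real.sin_pos_of_pos_of_lt_pi
    · positivity
    · rw [div_lt_iff₀ hn]; nlinarith [Real.pi_pos]
  have hnum : Num n (Real.pi * p / n) (b / 2)
      ((b / 2) ^ 2 * Real.sin (Real.pi * p / n) ^ 2 / (5120 * (n : ℝ) ^ 4)) :=
    ⟨hp.trans hpn, by positivity, by linarith, by positivity, hs, le_rfl⟩
  exact ⟨_, _, toFun (coreAt H hnum) hb (by positivity) (by linarith) m⟩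

/-- `p = 1`, weight `n`, constants polynomial in `n` and `1 / b` -/
theorem fun_n (H : HolP) {C₀ : ℕ} (hC : 20480 ≤ C₀) {b : ℝ} (hb : 0 < b) (hb1 : b ≤ 1) {n : ℕ}
    (hn : 2 ≤ n) : D1G.Fun b (b ^ C₀ / ((C₀ : ℝ) * n ^ C₀)) ((C₀ : ℝ) * n ^ C₀ / b ^ C₀) n
      (-(n * Real.sin (Real.pi / n) : ℝ)) (Fpn 1 n n) := by
  have hn0 : (0 : ℝ) < n := by positivity
  have hn1 : (1 : ℝ) ≤ n := by exact_mod_cast (by omega : 1 ≤ n)
  have hC' : (20480 : ℝ) ≤ C₀ := by exact_mod_cast hC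
  have hCp : (0 : ℝ) < C₀ := by linarith
  have hα : Real.pi * ((1 : ℕ) : ℝ) / n = Real.pi / n := by push_cast; ring
  have h2 := two_le hn
  have hs2 : 2 / n ≤ Real.sin (Real.pi / n) := by
    rw [div_le_iff₀ hn0]; linarith
  have hs : 0 < Real.sin (Real.pi / n) := lt_of_lt_of_le (by positivity) hs2
  have hnum : Num n (Real.pi / n) (b / 2)
      ((b / 2) ^ 2 * Real.sin (Real.pi / n) ^ 2 / (5120 * (n : ℝ) ^ 4)) :=
    ⟨by omega, by positivity, by linarith, by positivity, hs, le_rfl⟩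
  have h3 := toFun (coreAt H hnum) hb (by positivity) (by linarith) n
  rw [Lc_self (by omega)] at h3
  unfold Fpn
  rw [hα]
  have hbC : b ^ C₀ ≤ b ^ 2 := pow_le_pow_of_le_one hb.le hb1 (by omega)
  have hnC : (n : ℝ) ^ 6 ≤ n ^ C₀ := pow_le_pow_right₀ hn1 (by omega)
  have hnC1 : (n : ℝ) ≤ n ^ C₀ := le_self_pow₀ hn1 (by omega)
  refine Fun_mono h3 (by positivity) ?_ ?_
  · have h4 : (4 : ℝ) / n ^ 2 ≤ Real.sin (Real.pi / n) ^ 2 := by
      have := pow_le_pow_left₀ (by positivity) hs2 2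
      rw [div_pow] at this
      norm_num at this
      exact this
    calc b ^ C₀ / ((C₀ : ℝ) * n ^ C₀) ≤ b ^ 2 / (20480 * (n : ℝ) ^ 6) := by gcongr
      _ ≤ (b / 2) ^ 2 * (4 / (n : ℝ) ^ 2) / (5120 * (n : ℝ) ^ 4) / 2 := by
          rw [div_le_div_iff₀ (by positivity) (by norm_num)]
          have : (b / 2) ^ 2 * (4 / (n : ℝ) ^ 2) / (5120 * (n : ℝ) ^ 4) * (20480 * (n : ℝ) ^ 6) =
              4 * b ^ 2 := by
            field_simp
            ring
          rw [this]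
          nlinarith [sq_nonneg b]
      _ ≤ (b / 2) ^ 2 * Real.sin (Real.pi / n) ^ 2 / (5120 * (n : ℝ) ^ 4) / 2 := by gcongr
  · rw [le_div_iff₀ (by positivity)]
    have hb2 : b ^ C₀ ≤ 1 := pow_le_one₀ hb.le hb1
    calc 4 * (n : ℝ) * b ^ C₀ ≤ 4 * n * 1 := by gcongr
      _ = 4 * n := by ring
      _ ≤ C₀ * n ^ C₀ := by
          apply mul_le_mul (by linarith) hnC1 (by positivity) (by positivity)

/-- lower bound of the linear coefficient -/
theorem hL_n {C₀ : ℕ} (hC : 20480 ≤ C₀) {n : ℕ} (hn : 2 ≤ n) :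
    1 ≤ (C₀ : ℝ) * n ^ C₀ * ‖(-(n * Real.sin (Real.pi / n) : ℝ) : ℂ)‖ := by
  have h2 := two_le hn
  have hn1 : (1 : ℝ) ≤ n := by exact_mod_cast (by omega : 1 ≤ n)
  have hC' : (20480 : ℝ) ≤ C₀ := by exact_mod_cast hC
  rw [norm_neg, Complex.norm_real, Real.norm_of_nonneg (by linarith)]
  have h3 : (1 : ℝ) ≤ n ^ C₀ := one_le_pow₀ hn1
  have h4 : (1 : ℝ) ≤ C₀ * n ^ C₀ := by nlinarith
  nlinarith

/-- vanishing, for tables with constant critical value -/
theorem Fpn_of_const {p n m : ℕ} (hm : m ≠ 0) {a : ℤ → ℂ} {c : ℂ}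
    (h : ∀ x : ℝ, cv n (Real.pi * p / n) (fun j w =>
      gs a (x + (Real.pi * p / n * (2 * j + 1) : ℝ) + w)) = c) : Fpn p n m a = 0 :=
  FM_of_const (crit := cv n (Real.pi * p / n)) (α := Real.pi * p / n) (a := a) (c := c)
    (fun x => h x) (by exact_mod_cast hm)

end Vale.Agent.P097.H500.G
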