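import Mathlib

/-! # P097 disc, D1a: parametric integrals and contour shift (helper500) -/

set_option linter.all false

open MeasureTheory Set Filter Topology Metric

namespace Vale.Agent.P097.H500.G

/-- Differentiation of a parametric integral of holomorphic functions, bounded near the point. -/
theorem hasDerivAt_param {T : Set ℂ} (hT : IsOpen T) {φ : ℝ → ℂ → ℂ} {M : ℝ}
    (hc : ∀ t ∈ T, Continuous fun x => φ x t) (hd : ∀ x, DifferentiableOn ℂ (φ x) T)
    (hM : ∀ x, ∀ t ∈ T, ‖φ x t‖ ≤ M) (u v : ℝ) {t₀ : ℂ} (ht₀ : t₀ ∈ T) :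
    HasDerivAt (fun t => ∫ x in u..v, φ x t) (∫ x in u..v, deriv (φ x) t₀) t₀ := by
  obtain ⟨r, hr, hball⟩ := Metric.isOpen_iff.1 hT t₀ ht₀
  have hr2 : 0 < r / 2 := by positivity
  have hM0 : 0 ≤ M := (norm_nonneg _).trans (hM 0 t₀ ht₀)
  have hderiv : ∀ x, ∀ t ∈ ball t₀ (r / 2), ‖deriv (φ x) t‖ ≤ M / (r / 2) := by
    intro x t ht
    refine Complex.norm_deriv_le_of_forall_mem_sphere_norm_le hr2 ?_ ?_
    · have hsub : closedBall t (r / 2) ⊆ T := by
        intro s hs
        apply hball
        rw [mem_ball] at ht ⊢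
        rw [mem_closedBall] at hs
        linarith [dist_triangle s t t₀]
      exact (DifferentiableOn.mono (hd x) (closure_ball_subset_closedBall.trans hsub)).diffContOnCl
    · intro s hs
      apply hM
      apply hball
      rw [mem_sphere] at hs
      rw [mem_ball] at ht ⊢
      linarith [dist_triangle s t t₀]
  have hmeas : AEStronglyMeasurable (fun x => deriv (φ x) t₀) (volume.restrict (uIoc u v)) := by
    have hlim : ∀ x, Tendsto (fun k : ℕ => ((r / (k + 2) : ℝ) : ℂ)⁻¹ *
        (φ x (t₀ + ((r / (k + 2) : ℝ) : ℂ)) - φ x t₀)) atTop (𝓝 (deriv (φ x) t₀)) := by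
      intro x
      have h1 : HasDerivAt (φ x) (deriv (φ x) t₀) t₀ :=
        ((hd x).differentiableAt (hT.mem_nhds ht₀)).hasDerivAt
      have h2 := hasDerivAt_iff_tendsto_slope_zero.1 h1
      have h3 : Tendsto (fun k : ℕ => ((r / (k + 2) : ℝ) : ℂ)) atTop (𝓝[≠] 0) := by
        rw [tendsto_nhdsWithin_iff]
        refine ⟨?_, Eventually.of_forall fun k => ?_⟩
        · have h4 : Tendsto (fun k : ℕ => r / ((k : ℝ) + 2)) atTop (𝓝 0) :=
            tendsto_const_nhds.div_atTop
              (tendsto_atTop_add_const_right _ _ tendsto_natCast_atTop_atTop)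
          have h5 := (Complex.continuous_ofReal.tendsto 0).comp h4
          rw [Complex.ofReal_zero] at h5
          exact h5
        · have : (r / ((k : ℝ) + 2)) ≠ 0 := by positivity
          exact Complex.ofReal_ne_zero.2 this
      refine (h2.comp h3).congr fun k => ?_
      simp [smul_eq_mul]
    refine aestronglyMeasurable_of_tendsto_ae atTop (fun k => ?_) (ae_of_all _ hlim)
    have hk : t₀ + ((r / ((k : ℕ) + 2) : ℝ) : ℂ) ∈ T := by
      apply hball
      rw [mem_ball, dist_eq_norm, add_sub_cancel_left, Complex.norm_real, Real.norm_of_nonneg (by positivity)]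
      rw [div_lt_iff₀ (by positivity)]
      nlinarith [Nat.cast_nonneg (α := ℝ) k]
    exact (continuous_const.mul ((hc _ hk).sub (hc _ ht₀))).aestronglyMeasurable
  refine (intervalIntegral.hasDerivAt_integral_of_dominated_loc_of_deriv_le
    (bound := fun _ => M / (r / 2)) (F' := fun t x => deriv (φ x) t)
    (ball_mem_nhds t₀ hr2) ?_ ?_ hmeas ?_ ?_ ?_).2
  · filter_upwards [hT.mem_nhds ht₀] with t ht
    exact (hc t ht).aestronglyMeasurable
  · exact (hc t₀ ht₀).intervalIntegrable _ _
  · exact ae_of_all _ fun x _ t ht => hderiv x t ht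
  · exact intervalIntegrable_const
  · refine ae_of_all _ fun x _ t ht => ?_
    refine ((hd x).differentiableAt (hT.mem_nhds (hball ?_))).hasDerivAt
    exact ball_subset_ball (by linarith) ht

theorem differentiableOn_param {T : Set ℂ} (hT : IsOpen T) {φ : ℝ → ℂ → ℂ} {M : ℝ}
    (hc : ∀ t ∈ T, Continuous fun x => φ x t) (hd : ∀ x, DifferentiableOn ℂ (φ x) T)
    (hM : ∀ x, ∀ t ∈ T, ‖φ x t‖ ≤ M) (u v : ℝ) :
    DifferentiableOn ℂ (fun t => ∫ x in u..v, φ x t) T := fun t ht =>
  (hasDerivAt_param hT hc hd hM u v ht).differentiableAt.differentiableWithinAt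

/-- Contour shift for a `2π`-periodic function, holomorphic on an open set containing the closed
strip between the real axis and the line through `iτ`. -/
theorem contour_shift {f : ℂ → ℂ} {τ : ℝ} (hd : ∀ z : ℂ, z.im ∈ uIcc 0 τ → DifferentiableAt ℂ f z)
    (hper : ∀ z : ℂ, f (z + 2 * Real.pi) = f z) :
    ∫ x in (0 : ℝ)..(2 * Real.pi), f (x + τ * Complex.I) = ∫ x in (0 : ℝ)..(2 * Real.pi), f x := by
  have h := Complex.integral_boundary_rect_eq_zero_of_differentiableOn f 0
    ((2 * Real.pi : ℝ) + τ * Complex.I) (by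
      intro z hz
      refine (hd z ?_).differentiableWithinAt
      have := (Complex.mem_reProdIm.1 hz).2
      simpa using this)
  simp at h
  have hv : (∫ y in (0 : ℝ)..τ, f (2 * Real.pi + y * Complex.I)) = ∫ y in (0 : ℝ)..τ, f (y * Complex.I) := by
    refine intervalIntegral.integral_congr fun y _ => ?_
    show f (2 * Real.pi + y * Complex.I) = f (y * Complex.I)
    rw [add_comm, hper]
  rw [hv] at h
  have h2 : (∫ x in (0 : ℝ)..(2 * Real.pi), f x) -
    (∫ x in (0 : ℝ)..(2 * Real.pi), f (x + τ * Complex.I)) = 0 := by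
    linear_combination h
  exact (sub_eq_zero.1 h2).symm

end Vale.Agent.P097.H500.G
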