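import Vale.Agent.P097.H500.G.Param

/-! # P097 disc, D1a: weighted sequences and their functions (helper500) -/

set_option linter.all false

open MeasureTheory Set Filter Topology Metric

namespace Vale.Agent.P097.H500.G

/-- weighted summability -/
def WS (b : ℝ) (a : ℤ → ℂ) : Prop := Summable fun k : ℤ => ‖a k‖ * Real.exp (b * |(k : ℝ)|)

/-- weighted norm -/
noncomputable def wn (b : ℝ) (a : ℤ → ℂ) : ℝ := ∑' k : ℤ, ‖a k‖ * Real.exp (b * |(k : ℝ)|)

/-- exponentials -/
noncomputable def ek (k : ℤ) (w : ℂ) : ℂ := Complex.exp (Complex.I * k * w)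

/-- the function with Fourier coefficients `a` -/
noncomputable def gs (a : ℤ → ℂ) (w : ℂ) : ℂ := ∑' k : ℤ, a k * ek k w

/-- complex rotation -/
noncomputable def rot (z : ℂ) (a : ℤ → ℂ) : ℤ → ℂ := fun k => a k * ek k z

theorem ek_add (k : ℤ) (z w : ℂ) : ek k (z + w) = ek k z * ek k w := by
  unfold ek; rw [← Complex.exp_add]; ring_nf

theorem ek_zero (k : ℤ) : ek k 0 = 1 := by simp [ek]

theorem ek_ne_zero (k : ℤ) (z : ℂ) : ek k z ≠ 0 := Complex.exp_ne_zero _

theorem ek_neg_mul (k : ℤ) (z : ℂ) : ek (-k) z * ek k z = 1 := by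
  unfold ek; rw [← Complex.exp_add]
  have : Complex.I * ((-k : ℤ) : ℂ) * z + Complex.I * (k : ℂ) * z = 0 := by push_cast; ring
  rw [this, Complex.exp_zero]

theorem ek_mul (k m : ℤ) (z : ℂ) : ek k z * ek m z = ek (k + m) z := by
  unfold ek; rw [← Complex.exp_add]; push_cast; ring_nf

theorem ek_periodic (k : ℤ) (z : ℂ) : ek k (z + 2 * Real.pi) = ek k z := by
  unfold ek
  rw [Complex.exp_eq_exp_iff_exists_int]
  exact ⟨k, by ring⟩

theorem norm_ek (k : ℤ) (w : ℂ) : ‖ek k w‖ = Real.exp (-(k * w.im)) := by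
  unfold ek
  rw [Complex.norm_exp]
  congr 1
  simp [Complex.mul_re, Complex.mul_im]

theorem norm_ek_le {b : ℝ} (k : ℤ) {w : ℂ} (hw : |w.im| ≤ b) : ‖ek k w‖ ≤ Real.exp (b * |(k : ℝ)|) := by
  rw [norm_ek]
  apply Real.exp_le_exp.2
  calc -(k * w.im) ≤ |(k : ℝ) * w.im| := neg_le_abs _
    _ = |w.im| * |(k : ℝ)| := by rw [abs_mul, mul_comm]
    _ ≤ b * |(k : ℝ)| := by gcongr

theorem norm_ek_real (k : ℤ) (x : ℝ) : ‖ek k (x : ℂ)‖ = 1 := by
  rw [norm_ek]; simp

theorem differentiable_ek (k : ℤ) : Differentiable ℂ (ek k) := by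
  unfold ek; fun_prop

theorem gs_rot (z : ℂ) (a : ℤ → ℂ) (w : ℂ) : gs (rot z a) w = gs a (z + w) := by
  unfold gs rot
  exact tsum_congr fun k => by rw [ek_add, mul_assoc]

theorem rot_rot (z z' : ℂ) (a : ℤ → ℂ) : rot z (rot z' a) = rot (z' + z) a := by
  funext k; unfold rot; rw [ek_add, mul_assoc]

theorem norm_rot_real (x : ℝ) (a : ℤ → ℂ) (k : ℤ) : ‖rot (x : ℂ) a k‖ = ‖a k‖ := by
  unfold rot; rw [norm_mul, norm_ek_real, mul_one]

theorem WS_rot_real {b : ℝ} {a : ℤ → ℂ} (h : WS b a) (x : ℝ) : WS b (rot (x : ℂ) a) := by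
  unfold WS at *; simpa only [norm_rot_real] using h

theorem wn_rot_real (b : ℝ) (a : ℤ → ℂ) (x : ℝ) : wn b (rot (x : ℂ) a) = wn b a := by
  unfold wn; simp only [norm_rot_real]

/-- the open strip around the segment between `0` and `τ` -/
def Strip (b τ : ℝ) : Set ℂ := {v | ∃ y ∈ uIcc 0 τ, |v.im - y| < b}

theorem isOpen_Strip (b τ : ℝ) : IsOpen (Strip b τ) := by
  have : Strip b τ = ⋃ y ∈ uIcc 0 τ, {v : ℂ | |v.im - y| < b} := by
    ext v; simp [Strip]
  rw [this]
  exact isOpen_biUnion fun y _ => isOpen_lt (by fun_prop) continuous_const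

theorem exp_between {k : ℤ} {y τ : ℝ} (hy : y ∈ uIcc 0 τ) :
    Real.exp (-(k * y)) ≤ 1 + Real.exp (-(k * τ)) := by
  have h0 := Real.exp_pos (-(k * τ))
  rcases le_total 0 τ with h | h
  · rw [uIcc_of_le h] at hy
    rcases le_total 0 (k : ℝ) with hk | hk
    · have : Real.exp (-(k * y)) ≤ 1 := by
        rw [Real.exp_le_one_iff]; nlinarith [hy.1]
      linarith
    · have : Real.exp (-(k * y)) ≤ Real.exp (-(k * τ)) := by
        apply Real.exp_le_exp.2; nlinarith [hy.2]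
      linarith
  · rw [uIcc_of_ge h] at hy
    rcases le_total 0 (k : ℝ) with hk | hk
    · have : Real.exp (-(k * y)) ≤ Real.exp (-(k * τ)) := by
        apply Real.exp_le_exp.2; nlinarith [hy.1]
      linarith
    · have : Real.exp (-(k * y)) ≤ 1 := by
        rw [Real.exp_le_one_iff]; nlinarith [hy.2]
      linarith

/-- domination of the terms in the strip -/
theorem term_le {b τ : ℝ} {a : ℤ → ℂ} {v : ℂ} (hv : v ∈ Strip b τ) (k : ℤ) :
    ‖a k * ek k v‖ ≤ ‖a k‖ * Real.exp (b * |(k : ℝ)|) +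
      ‖rot (τ * Complex.I) a k‖ * Real.exp (b * |(k : ℝ)|) := by
  obtain ⟨y, hy, hvy⟩ := hv
  have h1 : ‖ek k v‖ = Real.exp (-(k * y)) * Real.exp (-(k * (v.im - y))) := by
    rw [norm_ek, ← Real.exp_add]; ring_nf
  have h2 : Real.exp (-(k * (v.im - y))) ≤ Real.exp (b * |(k : ℝ)|) := by
    apply Real.exp_le_exp.2
    calc -(k * (v.im - y)) ≤ |(k : ℝ) * (v.im - y)| := neg_le_abs _
      _ = |v.im - y| * |(k : ℝ)| := by rw [abs_mul, mul_comm]
      _ ≤ b * |(k : ℝ)| := by gcongr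
  have h3 : ‖rot (τ * Complex.I) a k‖ = ‖a k‖ * Real.exp (-(k * τ)) := by
    unfold rot; rw [norm_mul, norm_ek]; simp
  rw [norm_mul, h1, h3]
  calc ‖a k‖ * (Real.exp (-(k * y)) * Real.exp (-(k * (v.im - y))))
      ≤ ‖a k‖ * ((1 + Real.exp (-(k * τ))) * Real.exp (b * |(k : ℝ)|)) := by
        gcongr
        exact exp_between hy
    _ = _ := by ring

theorem summable_dom {b τ : ℝ} {a : ℤ → ℂ} (h1 : WS b a) (h2 : WS b (rot (τ * Complex.I) a)) :
    Summable fun k : ℤ => ‖a k‖ * Real.exp (b * |(k : ℝ)|) +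
      ‖rot (τ * Complex.I) a k‖ * Real.exp (b * |(k : ℝ)|) := h1.add h2

theorem summable_gs {b τ : ℝ} {a : ℤ → ℂ} (h1 : WS b a) (h2 : WS b (rot (τ * Complex.I) a))
    {v : ℂ} (hv : v ∈ Strip b τ) : Summable fun k : ℤ => a k * ek k v :=
  Summable.of_norm_bounded (summable_dom h1 h2) fun k => term_le hv k

theorem norm_gs_le {b τ : ℝ} {a : ℤ → ℂ} (h1 : WS b a) (h2 : WS b (rot (τ * Complex.I) a))
    {v : ℂ} (hv : v ∈ Strip b τ) : ‖gs a v‖ ≤ wn b a + wn b (rot (τ * Complex.I) a) := by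
  unfold gs wn
  rw [← h1.tsum_add h2]
  exact tsum_of_norm_bounded (summable_dom h1 h2).hasSum fun k => term_le hv k

theorem differentiableOn_gs {b τ : ℝ} {a : ℤ → ℂ} (h1 : WS b a)
    (h2 : WS b (rot (τ * Complex.I) a)) : DifferentiableOn ℂ (gs a) (Strip b τ) :=
  Complex.differentiableOn_tsum_of_summable_norm (summable_dom h1 h2)
    (fun k => ((differentiable_ek k).const_mul (a k)).differentiableOn) (isOpen_Strip b τ)
    fun k v hv => term_le hv k

theorem rot_zero (a : ℤ → ℂ) : rot 0 a = a := by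
  funext k; simp [rot, ek_zero]

theorem rot_zero' (a : ℤ → ℂ) : rot ((0 : ℝ) * Complex.I) a = a := by
  rw [Complex.ofReal_zero, zero_mul, rot_zero]

theorem mem_Strip_zero {b : ℝ} {v : ℂ} : v ∈ Strip b 0 ↔ |v.im| < b := by
  simp [Strip]

/-- sharp bound on the symmetric strip -/
theorem norm_gs_le' {b : ℝ} {a : ℤ → ℂ} (h1 : WS b a) {v : ℂ} (hv : |v.im| ≤ b) :
    ‖gs a v‖ ≤ wn b a := by
  unfold gs wn
  exact tsum_of_norm_bounded h1.hasSum fun k => by
    rw [norm_mul]; gcongr; exact norm_ek_le k hv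

theorem gs_periodic (a : ℤ → ℂ) (v : ℂ) : gs a (v + 2 * Real.pi) = gs a v := by
  unfold gs; exact tsum_congr fun k => by rw [ek_periodic]

theorem WS.add {b : ℝ} {a c : ℤ → ℂ} (ha : WS b a) (hc : WS b c) : WS b (a + c) := by
  unfold WS at *
  refine Summable.of_nonneg_of_le (fun k => by positivity) (fun k => ?_) (Summable.add ha hc)
  rw [← add_mul]
  gcongr
  exact norm_add_le _ _

theorem WS.smul {b : ℝ} {a : ℤ → ℂ} (ha : WS b a) (t : ℂ) : WS b (t • a) := by
  unfold WS at *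
  refine (ha.mul_left ‖t‖).congr fun k => ?_
  rw [Pi.smul_apply, norm_smul]; ring

theorem wn_smul {b : ℝ} (a : ℤ → ℂ) (t : ℂ) : wn b (t • a) = ‖t‖ * wn b a := by
  unfold wn
  rw [← tsum_mul_left]
  exact tsum_congr fun k => by rw [Pi.smul_apply, norm_smul]; ring

theorem wn_nonneg (b : ℝ) (a : ℤ → ℂ) : 0 ≤ wn b a := tsum_nonneg fun k => by positivity

theorem wn_add_le {b : ℝ} {a c : ℤ → ℂ} (ha : WS b a) (hc : WS b c) :
    wn b (a + c) ≤ wn b a + wn b c := by
  unfold wn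
  rw [← Summable.tsum_add ha hc]
  refine Summable.tsum_le_tsum (fun k => ?_) (WS.add ha hc) (Summable.add ha hc)
  rw [← add_mul]
  gcongr
  exact norm_add_le _ _

theorem gs_add {b : ℝ} {a c : ℤ → ℂ} (ha : WS b a) (hc : WS b c) {v : ℂ} (hv : |v.im| < b) :
    gs (a + c) v = gs a v + gs c v := by
  unfold gs
  have h1 := summable_gs (τ := 0) ha (by rw [rot_zero']; exact ha) (mem_Strip_zero.2 hv)
  have h2 := summable_gs (τ := 0) hc (by rw [rot_zero']; exact hc) (mem_Strip_zero.2 hv)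
  rw [← h1.tsum_add h2]
  exact tsum_congr fun k => by rw [Pi.add_apply, add_mul]

theorem gs_smul (t : ℂ) (a : ℤ → ℂ) (v : ℂ) : gs (t • a) v = t * gs a v := by
  unfold gs
  rw [← tsum_mul_left]
  exact tsum_congr fun k => by rw [Pi.smul_apply, smul_eq_mul, mul_assoc]

/-- Fourier coefficients of `gs a`, shifted. -/
theorem integral_gs {b : ℝ} (hb : 0 < b) {a : ℤ → ℂ} (ha : WS b a) (m : ℤ) (s : ℝ) :
    ∫ x in (0 : ℝ)..(2 * Real.pi), gs a (x + s) * ek (-m) x = 2 * Real.pi * (a m * ek m s) := by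
  have hint : ∀ k : ℤ, ∫ x in (0 : ℝ)..(2 * Real.pi), (a k * ek k s) * (ek k x * ek (-m) x) =
      if k = m then 2 * Real.pi * (a m * ek m s) else 0 := by
    intro k
    rw [intervalIntegral.integral_const_mul]
    split_ifs with h
    · subst h
      have : ∀ x : ℝ, ek k (x : ℂ) * ek (-k) x = 1 := fun x => by rw [mul_comm, ek_neg_mul]
      simp only [this]
      simp
      ring
    · have h1 : ∀ x : ℝ, ek k (x : ℂ) * ek (-m) x = Complex.exp ((Complex.I * ((k - m : ℤ) : ℂ)) * x) := by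
        intro x
        rw [ek_mul, ← sub_eq_add_neg]; rfl
      simp only [h1]
      have hne : Complex.I * ((k - m : ℤ) : ℂ) ≠ 0 := by
        refine mul_ne_zero Complex.I_ne_zero ?_
        exact_mod_cast sub_ne_zero.2 h
      rw [integral_exp_mul_complex hne]
      have : Complex.exp (Complex.I * ((k - m : ℤ) : ℂ) * ((2 * Real.pi : ℝ) : ℂ)) = 1 := by
        rw [Complex.exp_eq_one_iff]
        exact ⟨k - m, by push_cast; ring⟩
      rw [this]
      simp
  have hterm : ∀ x : ℝ, gs a (x + s) * ek (-m) x = ∑' k : ℤ, (a k * ek k s) * (ek k x * ek (-m) x) := by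
    intro x
    unfold gs
    rw [← tsum_mul_right]
    exact tsum_congr fun k => by rw [ek_add]; ring
  simp only [hterm]
  have hsum := intervalIntegral.hasSum_intervalIntegral_of_summable_norm (a := 0) (b := 2 * Real.pi)
    (f := fun k : ℤ => (⟨fun x : ℝ => (a k * ek k s) * (ek k x * ek (-m) x), by
      have := (differentiable_ek k).continuous
      have := (differentiable_ek (-m)).continuous
      fun_prop⟩ : C(ℝ, ℂ))) (by
      have hk : ∀ k : ℤ, ‖(ContinuousMap.restrict (⟨uIcc 0 (2 * Real.pi), isCompact_uIcc⟩ : TopologicalSpace.Compacts ℝ)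
        (⟨fun x : ℝ => (a k * ek k s) * (ek k x * ek (-m) x), by
          have := (differentiable_ek k).continuous
          have := (differentiable_ek (-m)).continuous
          fun_prop⟩ : C(ℝ, ℂ)))‖ ≤ ‖a k‖ * Real.exp (b * |(k : ℝ)|) := by
        intro k
        rw [ContinuousMap.norm_le _ (by positivity)]
        intro x
        show ‖(a k * ek k s) * (ek k ((x : ℝ) : ℂ) * ek (-m) ((x : ℝ) : ℂ))‖ ≤ _
        rw [norm_mul, norm_mul, norm_mul, norm_ek_real, norm_ek_real, norm_ek_real, mul_one, mul_one,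
          mul_one]
        exact le_mul_of_one_le_right (norm_nonneg _) (Real.one_le_exp (by positivity))
      exact Summable.of_nonneg_of_le (fun k => norm_nonneg _) hk ha)
  have h2 := hsum.tsum_eq
  simp only [ContinuousMap.coe_mk, hint] at h2
  rw [← h2, tsum_ite_eq]

end Vale.Agent.P097.H500.G
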